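import Mathlib
import Crest.Prelude.Def_BernoulliConv

set_option autoImplicit false

open Polynomial Crest.AnalysisR
open scoped ComplexConjugate

namespace Crest.Agent.R104

lemma salem_factor {β : ℝ} (hβ : IsQuarticSalem β) :
    ∃ (a0 a1 a2 a3 : ℤ) (z1 z2 : ℂ), ‖z1‖ = 1 ∧ ‖z2‖ = 1 ∧
      ∀ t : ℂ, t ^ 4 + a3 * t ^ 3 + a2 * t ^ 2 + a1 * t + a0 =
        (t - β) * (t - (β⁻¹ : ℝ)) * (t - z1) * (t - z2) := by
  obtain ⟨h1, hint, hdeg, hinv, hroots⟩ := hβ
  have hintQ : IsIntegral ℚ β := hint.tower_top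
  set f := minpoly ℚ β with hf
  have hfZ : f = (minpoly ℤ β).map (algebraMap ℤ ℚ) :=
    minpoly.isIntegrallyClosed_eq_field_fractions' ℚ hint
  set g : ℂ[X] := f.map (algebraMap ℚ ℂ) with hg
  have hgm : g.Monic := (minpoly.monic hintQ).map _
  have hg0 : g ≠ 0 := hgm.ne_zero
  have hcard : g.roots.card = 4 := by
    rw [IsAlgClosed.card_roots_eq_natDegree, hg, natDegree_map, hdeg]
  have hnd : g.roots.Nodup := nodup_roots (minpoly.irreducible hintQ).separable.map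
  have hmem : ∀ z : ℂ, z ∈ g.roots ↔ aeval z f = 0 := by
    intro z
    rw [mem_roots hg0, IsRoot.def, hg, eval_map_algebraMap]
  have hreal : ∀ x : ℝ, aeval x f = 0 → ((x : ℝ) : ℂ) ∈ g.roots := by
    intro x hx
    rw [hmem]
    have := aeval_algebraMap_apply ℂ x f
    rw [hx, map_zero] at this
    exact this
  have hb1 : (β : ℂ) ∈ g.roots := hreal β (minpoly.aeval ℚ β)
  have hb2 : ((β⁻¹ : ℝ) : ℂ) ∈ g.roots := hreal _ hinv
  have hne : ((β⁻¹ : ℝ) : ℂ) ≠ (β : ℂ) := by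
    have : β⁻¹ < 1 := inv_lt_one_of_one_lt₀ h1
    intro h
    have := Complex.ofReal_injective h
    linarith
  obtain ⟨s1, hs1⟩ := Multiset.exists_cons_of_mem hb1
  have hb2' : ((β⁻¹ : ℝ) : ℂ) ∈ s1 := by
    rw [hs1, Multiset.mem_cons] at hb2
    exact hb2.resolve_left hne
  obtain ⟨s2, hs2⟩ := Multiset.exists_cons_of_mem hb2'
  have hc2 : s2.card = 2 := by
    rw [hs1, hs2] at hcard
    simpa using hcard
  obtain ⟨z1, z2, hz⟩ := Multiset.card_eq_two.1 hc2
  have hall : g.roots = (β : ℂ) ::ₘ ((β⁻¹ : ℝ) : ℂ) ::ₘ {z1, z2} := by rw [hs1, hs2, hz]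
  have hnd' := hnd
  rw [hall, Multiset.nodup_cons, Multiset.nodup_cons] at hnd'
  obtain ⟨hn1, hn2, -⟩ := hnd'
  have hnorm : ∀ z ∈ ({z1, z2} : Multiset ℂ), ‖z‖ = 1 := by
    intro z hz
    have hzr : z ∈ g.roots := by
      rw [hall]; exact Multiset.mem_cons_of_mem (Multiset.mem_cons_of_mem hz)
    rcases hroots z ((hmem z).1 hzr) with h | h | h
    · exact absurd (Multiset.mem_cons_of_mem (h ▸ hz)) hn1
    · exact absurd (h ▸ hz) hn2
    · exact h
  set F := minpoly ℤ β with hF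
  have hFm : F.Monic := minpoly.monic hint
  have hFdeg : F.natDegree = 4 := by
    rw [← hdeg, hfZ, hFm.natDegree_map]
  refine ⟨F.coeff 0, F.coeff 1, F.coeff 2, F.coeff 3, z1, z2, hnorm _ (by simp),
    hnorm _ (by simp), fun t => ?_⟩
  have e1 := (IsAlgClosed.splits g).eval_eq_prod_roots_of_monic hgm t
  rw [hall] at e1
  have e2 : eval t g = aeval t F := by
    rw [hg, eval_map_algebraMap, hfZ, aeval_map_algebraMap]
  rw [e2, aeval_eq_sum_range, hFdeg] at e1
  have e4 : F.coeff 4 = 1 := by rw [← hFdeg]; exact hFm.coeff_natDegree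
  simp only [Finset.sum_range_succ, Finset.range_zero, Finset.sum_empty, e4, zsmul_eq_mul,
    Multiset.insert_eq_cons, Multiset.map_cons, Multiset.prod_cons, Multiset.map_singleton,
    Multiset.prod_singleton] at e1
  push_cast at e1 ⊢
  linear_combination e1

lemma salem_not_quadratic {β : ℝ} (hβ : IsQuarticSalem β) (q : ℚ) : β + β⁻¹ ≠ q := by
  obtain ⟨h1, hint, hdeg, -, -⟩ := hβ
  intro h
  have hb0 : β ≠ 0 := by linarith
  have hP : aeval β (X ^ 2 - C q * X + 1 : ℚ[X]) = 0 := by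
    simp only [map_add, map_sub, map_pow, aeval_X, map_mul, aeval_C, map_one, eq_ratCast]
    rw [← h]; field_simp; ring
  have hdegP : (X ^ 2 - C q * X + 1 : ℚ[X]).natDegree = 2 := by compute_degree!
  have hP0 : (X ^ 2 - C q * X + 1 : ℚ[X]) ≠ 0 := by
    intro h0; rw [h0] at hdegP; simp at hdegP
  have := natDegree_le_of_dvd (minpoly.dvd ℚ β hP) hP0
  omega

theorem salem_data {β : ℝ} (hβ : IsQuarticSalem β) :
    ∃ ω : ℂ, ‖ω‖ = 1 ∧ (∀ k : ℕ, ∃ n : ℤ, β ^ k + β⁻¹ ^ k + 2 * (ω ^ k).re = n) ∧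
      IsIntegral ℤ β⁻¹ := by
  obtain ⟨a0, a1, a2, a3, z1, z2, hz1, hz2, hid⟩ := salem_factor hβ
  have h1 := hβ.1
  have hb0 : β ≠ 0 := by linarith
  set b : ℂ := (β : ℂ) with hb
  set c : ℂ := ((β⁻¹ : ℝ) : ℂ) with hc
  have hbc : b * c = 1 := by
    rw [hb, hc, ← Complex.ofReal_mul, mul_inv_cancel₀ hb0, Complex.ofReal_one]
  have t0 := hid 0
  have t1 := hid 1
  have t2 := hid (-1)
  have t3 := hid 2
  have v0 : (a0 : ℂ) = z1 * z2 := by linear_combination t0 + z1 * z2 * hbc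
  have v3 : (a3 : ℂ) = -(b + c + z1 + z2) := by
    linear_combination (1 / 2 : ℂ) * t0 - (1 / 2 : ℂ) * t1 - (1 / 6 : ℂ) * t2 + (1 / 6 : ℂ) * t3
  have v2 : (a2 : ℂ) = b * c + z1 * z2 + (b + c) * (z1 + z2) := by
    linear_combination -t0 + (1 / 2 : ℂ) * t1 + (1 / 2 : ℂ) * t2
  have v1 : (a1 : ℂ) = -((b + c) * (z1 * z2) + b * c * (z1 + z2)) := by
    linear_combination -(1 / 2 : ℂ) * t0 + t1 - (1 / 3 : ℂ) * t2 - (1 / 6 : ℂ) * t3
  have habs : |a0| = 1 := by
    have : ‖(a0 : ℂ)‖ = 1 := by rw [v0, norm_mul, hz1, hz2, mul_one]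
    rw [Complex.norm_intCast] at this
    exact_mod_cast this
  have ha0 : a0 = 1 := by
    rcases abs_eq (zero_le_one) |>.1 habs with h | h
    · exact h
    · exfalso
      refine salem_not_quadratic hβ (((a1 - a3 : ℤ) : ℚ) / 2) ?_
      apply Complex.ofReal_injective
      have hv0 : z1 * z2 = -1 := by rw [← v0, h]; simp
      have : b + c = ((a1 : ℂ) - a3) / 2 := by
        rw [v1, v3, hv0, hbc]; ring
      rw [Complex.ofReal_add, ← hb, ← hc, this]
      push_cast; ring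
  have hz12 : z1 * z2 = 1 := by rw [← v0, ha0]; simp
  have hconj : z2 = conj z1 := by
    have h3 : z1 * conj z1 = 1 := by rw [Complex.mul_conj', hz1]; simp
    have hz0 : z1 ≠ 0 := by intro h; rw [h] at hz1; simp at hz1
    exact mul_left_cancel₀ hz0 (hz12.trans h3.symm)
  refine ⟨z1, hz1, ?_, ?_⟩
  · have hs : ∀ k : ℕ, ∃ n : ℤ, b ^ k + c ^ k + z1 ^ k + z2 ^ k = n := by
      intro k
      induction k using Nat.strong_induction_on with
      | _ k ih =>
        match k, ih with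
        | 0, _ => exact ⟨4, by norm_num⟩
        | 1, _ => exact ⟨-a3, by push_cast; rw [v3]; ring⟩
        | 2, _ => exact ⟨a3 ^ 2 - 2 * a2, by push_cast; rw [v3, v2]; ring⟩
        | 3, _ => exact ⟨-a3 ^ 3 + 3 * a3 * a2 - 3 * a1, by push_cast; rw [v3, v2, v1]; ring⟩
        | k + 4, ih =>
          obtain ⟨n0, h0⟩ := ih k (by omega)
          obtain ⟨n1, h1⟩ := ih (k + 1) (by omega)
          obtain ⟨n2, h2⟩ := ih (k + 2) (by omega)
          obtain ⟨n3, h3⟩ := ih (k + 3) (by omega)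
          refine ⟨-(a3 * n3 + a2 * n2 + a1 * n1 + a0 * n0), ?_⟩
          push_cast
          rw [← h0, ← h1, ← h2, ← h3]
          have r1 := hid b
          have r2 := hid c
          have r3 := hid z1
          have r4 := hid z2
          simp only [sub_self, mul_zero, zero_mul] at r1 r2 r3 r4
          linear_combination b ^ k * r1 + c ^ k * r2 + z1 ^ k * r3 + z2 ^ k * r4
    intro k
    obtain ⟨n, hn⟩ := hs k
    refine ⟨n, ?_⟩
    apply Complex.ofReal_injective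
    rw [hconj, ← map_pow, add_assoc, Complex.add_conj, hb, hc] at hn
    push_cast at hn ⊢
    exact hn
  · have r2 := hid c
    simp only [sub_self, mul_zero, zero_mul] at r2
    have r3 : β⁻¹ ^ 4 + a3 * β⁻¹ ^ 3 + a2 * β⁻¹ ^ 2 + a1 * β⁻¹ + a0 = 0 := by
      apply Complex.ofReal_injective
      rw [hc] at r2
      push_cast at r2 ⊢
      exact r2
    refine ⟨X ^ 4 + C a3 * X ^ 3 + C a2 * X ^ 2 + C a1 * X + C a0, by monicity!, ?_⟩
    simp only [eval₂_add, eval₂_mul, eval₂_C, eval₂_X_pow, eval₂_X]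
    simp only [eq_intCast]
    exact r3

lemma cos_ne_zero_of_isIntegral {x : ℝ} (hx : IsIntegral ℤ x) : Real.cos (Real.pi * x) ≠ 0 := by
  intro h
  obtain ⟨k, hk⟩ := Real.cos_eq_zero_iff.1 h
  have hx' : x = k + 1 / 2 := by
    have := Real.pi_pos
    have e : Real.pi * x = Real.pi * (k + 1 / 2) := by rw [hk]; ring
    exact mul_left_cancel₀ this.ne' e
  have h2 : IsIntegral ℤ (algebraMap ℚ ℝ (1 / 2)) := by
    have : algebraMap ℚ ℝ (1 / 2) = x - algebraMap ℤ ℝ k := by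
      rw [hx']; simp
    rw [this]
    exact hx.sub isIntegral_algebraMap
  rw [isIntegral_algebraMap_iff (algebraMap ℚ ℝ).injective] at h2
  obtain ⟨y, hy⟩ := IsIntegrallyClosed.isIntegral_iff.1 h2
  have : (2 * y : ℤ) = 1 := by
    have h3 : (y : ℚ) = 1 / 2 := by simpa using hy
    have : ((2 * y : ℤ) : ℚ) = 1 := by push_cast; rw [h3]; norm_num
    exact_mod_cast this
  omega

end Crest.Agent.R104
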