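import Mathlib

set_option autoImplicit false

open MeasureTheory ProbabilityTheory Complex
open scoped ENNReal NNReal ComplexConjugate

namespace Crest.Agent.R104

/-- The trigonometric sum. -/
noncomputable def tsumS {n : ℕ} (u : Fin n → ℂ) (ξ : Fin n → ℝ) (x : ℝ) : ℂ :=
  ∑ i, u i * cexp (ξ i * x * I)

lemma continuous_tsumS {n : ℕ} (u : Fin n → ℂ) (ξ : Fin n → ℝ) : Continuous (tsumS u ξ) := by
  unfold tsumS
  fun_prop

lemma norm_cexp_mul_I (a x : ℝ) : ‖cexp (a * x * I)‖ = 1 := by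
  have : (a : ℂ) * x * I = ((a * x : ℝ) : ℂ) * I := by push_cast; ring
  rw [this, Complex.norm_exp_ofReal_mul_I]

lemma norm_tsumS_le {n : ℕ} (u : Fin n → ℂ) (hu : ∀ i, ‖u i‖ ≤ 1) (ξ : Fin n → ℝ) (x : ℝ) :
    ‖tsumS u ξ x‖ ≤ n := by
  unfold tsumS
  calc ‖∑ i, u i * cexp (ξ i * x * I)‖ ≤ ∑ i, ‖u i * cexp (ξ i * x * I)‖ := norm_sum_le _ _
    _ ≤ ∑ _i : Fin n, (1 : ℝ) := by
        refine Finset.sum_le_sum fun i _ => ?_
        rw [norm_mul, norm_cexp_mul_I, mul_one]; exact hu i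
    _ = n := by simp

lemma integrable_cexp (μ : Measure ℝ) [IsFiniteMeasure μ] (a : ℝ) :
    Integrable (fun x : ℝ => cexp (a * x * I)) μ := by
  refine Integrable.of_bound (C := 1) (by fun_prop) (ae_of_all _ fun x => ?_)
  rw [norm_cexp_mul_I]

lemma integrable_norm_tsumS (μ : Measure ℝ) [IsFiniteMeasure μ] {n : ℕ} (u : Fin n → ℂ)
    (hu : ∀ i, ‖u i‖ ≤ 1) (ξ : Fin n → ℝ) :
    Integrable (fun x => ‖tsumS u ξ x‖) μ := by
  refine Integrable.of_bound (C := n) (continuous_tsumS u ξ).norm.aestronglyMeasurable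
    (ae_of_all _ fun x => ?_)
  rw [norm_norm]; exact norm_tsumS_le u hu ξ x

lemma integrable_norm_sq_tsumS (μ : Measure ℝ) [IsFiniteMeasure μ] {n : ℕ} (u : Fin n → ℂ)
    (hu : ∀ i, ‖u i‖ ≤ 1) (ξ : Fin n → ℝ) :
    Integrable (fun x => ‖tsumS u ξ x‖ ^ 2) μ := by
  refine Integrable.of_bound (C := (n : ℝ) ^ 2)
    ((continuous_tsumS u ξ).norm.pow 2).aestronglyMeasurable
    (ae_of_all _ fun x => ?_)
  rw [Real.norm_eq_abs, abs_of_nonneg (by positivity)]
  exact pow_le_pow_left₀ (norm_nonneg _) (norm_tsumS_le u hu ξ x) 2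

lemma integral_tsumS (μ : Measure ℝ) [IsFiniteMeasure μ] {n : ℕ} (u : Fin n → ℂ)
    (ξ : Fin n → ℝ) : ∫ x, tsumS u ξ x ∂μ = ∑ i, u i * charFun μ (ξ i) := by
  unfold tsumS
  rw [integral_finsetSum _ (fun i _ => (integrable_cexp μ (ξ i)).const_mul _)]
  refine Finset.sum_congr rfl fun i _ => ?_
  rw [integral_const_mul, charFun_apply_real]

lemma normSq_tsumS {n : ℕ} (u : Fin n → ℂ) (ξ : Fin n → ℝ) (x : ℝ) :
    ((‖tsumS u ξ x‖ ^ 2 : ℝ) : ℂ) =
      ∑ i, ∑ j, u i * conj (u j) * cexp ((ξ i - ξ j : ℝ) * x * I) := by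
  rw [Complex.ofReal_pow, ← Complex.mul_conj']
  unfold tsumS
  rw [map_sum, Finset.sum_mul_sum]
  refine Finset.sum_congr rfl fun i _ => Finset.sum_congr rfl fun j _ => ?_
  rw [map_mul, ← Complex.exp_conj]
  have : cexp (((ξ i - ξ j : ℝ) : ℂ) * x * I) =
      cexp (ξ i * x * I) * cexp (conj ((ξ j : ℂ) * x * I)) := by
    rw [← Complex.exp_add]
    congr 1
    simp only [map_mul, Complex.conj_ofReal, Complex.conj_I]
    push_cast; ring
  rw [this]; ring

lemma integral_norm_sq_le (μ : Measure ℝ) [IsFiniteMeasure μ] {n : ℕ} (u : Fin n → ℂ)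
    (hu : ∀ i, ‖u i‖ ≤ 1) (ξ : Fin n → ℝ) (D : ℝ) (hD : 0 ≤ D)
    (h : ∀ i j, i ≠ j → ‖charFun μ (ξ i - ξ j)‖ ≤ D) :
    ∫ x, ‖tsumS u ξ x‖ ^ 2 ∂μ ≤ n * μ.real Set.univ + (n : ℝ) ^ 2 * D := by
  have h1 : ((∫ x, ‖tsumS u ξ x‖ ^ 2 ∂μ : ℝ) : ℂ) =
      ∑ i, ∑ j, u i * conj (u j) * charFun μ (ξ i - ξ j) := by
    rw [← integral_complex_ofReal]
    have : ∀ x, ((‖tsumS u ξ x‖ ^ 2 : ℝ) : ℂ) =
      ∑ i, ∑ j, u i * conj (u j) * cexp ((ξ i - ξ j : ℝ) * x * I) := normSq_tsumS u ξ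
    rw [integral_congr_ae (ae_of_all _ this)]
    rw [integral_finsetSum _ (fun i _ => integrable_finsetSum _
      (fun j _ => (integrable_cexp μ _).const_mul _))]
    refine Finset.sum_congr rfl fun i _ => ?_
    rw [integral_finsetSum _ (fun j _ => (integrable_cexp μ _).const_mul _)]
    refine Finset.sum_congr rfl fun j _ => ?_
    rw [integral_const_mul, charFun_apply_real]
  have h2 : ∫ x, ‖tsumS u ξ x‖ ^ 2 ∂μ ≤
      ‖∑ i, ∑ j, u i * conj (u j) * charFun μ (ξ i - ξ j)‖ := by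
    rw [← h1, Complex.norm_real]
    exact le_abs_self _
  refine h2.trans ((norm_sum_le _ _).trans ?_)
  have h3 : ∀ i : Fin n, ‖∑ j, u i * conj (u j) * charFun μ (ξ i - ξ j)‖ ≤
      μ.real Set.univ + n * D := by
    intro i
    refine (norm_sum_le _ _).trans ?_
    have : ∀ j, ‖u i * conj (u j) * charFun μ (ξ i - ξ j)‖ ≤
        (if j = i then μ.real Set.univ else 0) + D := by
      intro j
      have hb : ‖u i * conj (u j) * charFun μ (ξ i - ξ j)‖ ≤ ‖charFun μ (ξ i - ξ j)‖ := by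
        rw [norm_mul, norm_mul, Complex.norm_conj]
        have := mul_le_mul (hu i) (hu j) (norm_nonneg _) zero_le_one
        rw [one_mul] at this
        exact mul_le_of_le_one_left (norm_nonneg _) this
      refine hb.trans ?_
      split_ifs with hij
      · exact (norm_charFun_le _).trans (by linarith)
      · rw [zero_add]; exact h i j (Ne.symm hij)
    refine (Finset.sum_le_sum fun j _ => this j).trans ?_
    rw [Finset.sum_add_distrib]
    simp
  refine (Finset.sum_le_sum fun i _ => h3 i).trans ?_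
  simp only [Finset.sum_const, Finset.card_univ, Fintype.card_fin, nsmul_eq_mul]
  nlinarith

lemma exists_trunc (m γ : Measure ℝ) [IsFiniteMeasure m] [IsFiniteMeasure γ] (hm : m ≪ γ)
    (ε : ℝ) (hε : 0 < ε) :
    ∃ (T : ℕ) (A : Set ℝ), MeasurableSet A ∧ m.real Aᶜ ≤ ε ∧
      m.restrict A ≤ (T : ℝ≥0∞) • γ := by
  set h := m.rnDeriv γ with hh
  have hmeas : Measurable h := Measure.measurable_rnDeriv m γ
  let B : ℕ → Set ℝ := fun T => {x | (T : ℝ≥0∞) < h x}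
  have hB : ∀ T, MeasurableSet (B T) := fun T => measurableSet_lt measurable_const hmeas
  have hanti : Antitone B := by
    intro a b hab x hx
    have hx' : (b : ℝ≥0∞) < h x := hx
    exact lt_of_le_of_lt (by exact_mod_cast hab) hx'
  have hlim := tendsto_measure_iInter_atTop (μ := m) (fun T => (hB T).nullMeasurableSet) hanti
    ⟨0, measure_ne_top _ _⟩
  have h0 : m (⋂ T, B T) = 0 := by
    apply hm
    have hlt := Measure.rnDeriv_lt_top m γ
    refine measure_mono_null ?_ (ae_iff.1 hlt)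
    intro x hx
    simp only [Set.mem_iInter] at hx
    intro hx'
    obtain ⟨T, hT⟩ := ENNReal.exists_nat_gt (ne_of_lt hx')
    exact lt_asymm hT (hx T)
  rw [h0] at hlim
  have hev := hlim.eventually (ge_mem_nhds (show (0 : ℝ≥0∞) < ENNReal.ofReal ε by simpa using hε))
  obtain ⟨T, hT⟩ := hev.exists
  refine ⟨T, (B T)ᶜ, (hB T).compl, ?_, ?_⟩
  · rw [compl_compl]
    exact ENNReal.toReal_le_of_le_ofReal hε.le hT
  · rw [Measure.le_iff]
    intro s hs
    rw [Measure.restrict_apply hs]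
    conv_lhs => rw [← Measure.withDensity_rnDeriv_eq m γ hm]
    rw [withDensity_apply _ (hs.inter (hB T).compl)]
    calc ∫⁻ a in s ∩ (B T)ᶜ, m.rnDeriv γ a ∂γ ≤ ∫⁻ _a in s ∩ (B T)ᶜ, (T : ℝ≥0∞) ∂γ := by
          refine setLIntegral_mono measurable_const fun x hx => ?_
          exact not_lt.1 hx.2
      _ = T * γ (s ∩ (B T)ᶜ) := by simp
      _ ≤ T * γ s := by gcongr; exact Set.inter_subset_left
      _ = _ := by simp

lemma amgm (a t : ℝ) (ht : 0 < t) : a ≤ (t * a ^ 2 + t⁻¹) / 2 := by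
  have h : 0 ≤ (t * a - 1) ^ 2 / t := by positivity
  have h2 : (t * a - 1) ^ 2 / t = t * a ^ 2 - 2 * a + t⁻¹ := by field_simp; ring
  linarith

lemma integral_norm_le_amgm (μ : Measure ℝ) [IsFiniteMeasure μ] {n : ℕ} (u : Fin n → ℂ)
    (hu : ∀ i, ‖u i‖ ≤ 1) (ξ : Fin n → ℝ) (t : ℝ) (ht : 0 < t) :
    ∫ x, ‖tsumS u ξ x‖ ∂μ ≤ (t * ∫ x, ‖tsumS u ξ x‖ ^ 2 ∂μ + t⁻¹ * μ.real Set.univ) / 2 := by
  have hi := integrable_norm_sq_tsumS μ u hu ξ
  calc ∫ x, ‖tsumS u ξ x‖ ∂μ ≤ ∫ x, (t * ‖tsumS u ξ x‖ ^ 2 + t⁻¹) / 2 ∂μ := by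
        refine integral_mono (integrable_norm_tsumS μ u hu ξ) ?_ fun x => amgm _ _ ht
        exact ((hi.const_mul t).add (integrable_const _)).div_const 2
    _ = _ := by
        rw [integral_div, integral_add (hi.const_mul t) (integrable_const _), integral_const_mul]
        simp [mul_comm]

theorem criterion (m : Measure ℝ) [IsFiniteMeasure m] (hm : m ≪ volume) (c C : ℝ) (hc : 0 < c)
    (hC : 0 ≤ C)
    (h : ∀ K : ℝ, ∃ (n : ℕ) (V : ℝ) (ξ : Fin n → ℝ), 0 < V ∧ K ≤ n * V ^ 2 ∧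
      (∀ i, c * V ≤ ‖charFun m (ξ i)‖) ∧
      (∀ i j, i ≠ j → ‖charFun m (ξ i - ξ j)‖ ≤ C * V ^ 2) ∧
      (∀ i j, i ≠ j → (n : ℝ) ≤ |ξ i - ξ j|)) : False := by
  set γ : Measure ℝ := gaussianReal 0 1 with hγ
  have hmγ : m ≪ γ := hm.trans (gaussianReal_absolutelyContinuous' 0 one_ne_zero)
  set b : ℝ := c / (4 * (C + 1)) with hb
  have hb0 : 0 < b := by positivity
  obtain ⟨T, A, hA, hAc, hAT⟩ := exists_trunc m γ hmγ (b * c / 4) (by positivity)
  set M : ℝ := m.real Set.univ with hM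
  have hM0 : 0 ≤ M := measureReal_nonneg
  set T' : ℝ := T + 1 with hT'
  have hT'0 : 0 < T' := by positivity
  obtain ⟨n, V, ξ, hV, hK, hlow, hup, hsep⟩ := h (32 * T' ^ 2 / c ^ 2 + 4 * b * M / c + 1)
  have hK1 : 32 * T' ^ 2 / c ^ 2 ≤ n * V ^ 2 := by
    have : 0 ≤ 4 * b * M / c := by positivity
    linarith
  have hK2 : 4 * b * M / c ≤ n * V ^ 2 := by
    have : 0 ≤ 32 * T' ^ 2 / c ^ 2 := by positivity
    linarith
  have hK3 : 0 < n * V ^ 2 := by
    have : 0 ≤ 32 * T' ^ 2 / c ^ 2 := by positivity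
    have : 0 ≤ 4 * b * M / c := by positivity
    linarith
  have hn : (0 : ℝ) < n := by
    by_contra hn
    have : (n : ℝ) = 0 := le_antisymm (not_lt.1 hn) (Nat.cast_nonneg _)
    rw [this] at hK3; simp at hK3
  have hnV : 0 < n * V := by positivity
  have hpos : ∀ i, 0 < ‖charFun m (ξ i)‖ := fun i => lt_of_lt_of_le (by positivity) (hlow i)
  set u : Fin n → ℂ := fun i => conj (charFun m (ξ i)) / (‖charFun m (ξ i)‖ : ℝ) with hu
  have hu1 : ∀ i, ‖u i‖ ≤ 1 := by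
    intro i
    simp only [hu, norm_div, Complex.norm_conj, Complex.norm_real, norm_norm]
    rw [div_self (hpos i).ne']
  -- lower bound
  have hL : c * (n * V) ≤ ∫ x, ‖tsumS u ξ x‖ ∂m := by
    have e1 : ∫ x, tsumS u ξ x ∂m = ((∑ i, ‖charFun m (ξ i)‖ : ℝ) : ℂ) := by
      rw [integral_tsumS]
      push_cast
      refine Finset.sum_congr rfl fun i _ => ?_
      simp only [hu]
      have hne : ((‖charFun m (ξ i)‖ : ℝ) : ℂ) ≠ 0 := by exact_mod_cast (hpos i).ne'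
      rw [div_mul_eq_mul_div, Complex.conj_mul', div_eq_iff hne]
      ring
    have e2 := norm_integral_le_integral_norm (μ := m) (tsumS u ξ)
    rw [e1, Complex.norm_real] at e2
    refine le_trans ?_ ((le_abs_self _).trans e2)
    calc c * (n * V) = ∑ _i : Fin n, c * V := by simp; ring
      _ ≤ _ := Finset.sum_le_sum fun i _ => hlow i
  -- Gaussian second moment
  have hG : ∫ x, ‖tsumS u ξ x‖ ^ 2 ∂γ ≤ 2 * n := by
    have := integral_norm_sq_le γ u hu1 ξ (1 / n) (by positivity) (by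
      intro i j hij
      rw [hγ, charFun_gaussianReal, Complex.norm_exp]
      have e : ((((ξ i - ξ j : ℝ) : ℂ) * ((0 : ℝ) : ℂ) * I -
          (((1 : ℝ≥0) : ℝ) : ℂ) * ((ξ i - ξ j : ℝ) : ℂ) ^ 2 / 2)).re = -((ξ i - ξ j) ^ 2 / 2) := by
        have : (((ξ i - ξ j : ℝ) : ℂ) * ((0 : ℝ) : ℂ) * I -
          (((1 : ℝ≥0) : ℝ) : ℂ) * ((ξ i - ξ j : ℝ) : ℂ) ^ 2 / 2) =
            ((-((ξ i - ξ j) ^ 2 / 2) : ℝ) : ℂ) := by
          push_cast; simp
        rw [this, Complex.ofReal_re]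
      rw [e]
      have h1 := hsep i j hij
      have h2 : (n : ℝ) ^ 2 ≤ (ξ i - ξ j) ^ 2 := by
        rw [← sq_abs (ξ i - ξ j)]; exact pow_le_pow_left₀ hn.le h1 2
      rw [Real.exp_neg, ← one_div]
      refine one_div_le_one_div_of_le hn ?_
      have := Real.add_one_le_exp ((ξ i - ξ j) ^ 2 / 2)
      nlinarith [sq_nonneg ((n : ℝ) - 1)])
    have e : (n : ℝ) ^ 2 * (1 / n) = n := by field_simp
    rw [e] at this
    simp only [probReal_univ, mul_one] at this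
    linarith
  have hMm : ∫ x, ‖tsumS u ξ x‖ ^ 2 ∂m ≤ n * M + (n : ℝ) ^ 2 * (C * V ^ 2) :=
    integral_norm_sq_le m u hu1 ξ _ (by positivity) hup
  -- split
  have hsplit : ∫ x, ‖tsumS u ξ x‖ ∂m =
      ∫ x in A, ‖tsumS u ξ x‖ ∂m + ∫ x in Aᶜ, ‖tsumS u ξ x‖ ∂m :=
    (integral_add_compl hA (integrable_norm_tsumS m u hu1 ξ)).symm
  have hP1 : ∫ x in A, ‖tsumS u ξ x‖ ∂m ≤ c * (n * V) / 4 := by
    have i1 : ∫ x in A, ‖tsumS u ξ x‖ ∂m ≤ ∫ x, ‖tsumS u ξ x‖ ∂((T : ℝ≥0∞) • γ) := by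
      refine integral_mono_measure hAT (ae_of_all _ fun x => norm_nonneg _) ?_
      exact (integrable_norm_tsumS γ u hu1 ξ).smul_measure (by simp)
    rw [integral_smul_measure] at i1
    simp only [ENNReal.toReal_natCast, smul_eq_mul] at i1
    have ht : 0 < (4 * T') / (c * (n * V)) := by positivity
    have i2 := integral_norm_le_amgm γ u hu1 ξ _ ht
    simp only [probReal_univ, mul_one] at i2
    have i3 : 0 ≤ ∫ x, ‖tsumS u ξ x‖ ∂γ := integral_nonneg fun x => norm_nonneg _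
    have i4 : (T : ℝ) * ∫ x, ‖tsumS u ξ x‖ ∂γ ≤ T' * ∫ x, ‖tsumS u ξ x‖ ∂γ := by
      gcongr; linarith
    have i5 : ∫ x, ‖tsumS u ξ x‖ ∂γ ≤
        ((4 * T') / (c * (n * V)) * (2 * n) + ((4 * T') / (c * (n * V)))⁻¹) / 2 := by
      refine i2.trans ?_
      gcongr
    have i6 : T' * (((4 * T') / (c * (n * V)) * (2 * n) + ((4 * T') / (c * (n * V)))⁻¹) / 2) =
        4 * T' ^ 2 / (c * V) + c * (n * V) / 8 := by
      field_simp; ring
    have i7 : 4 * T' ^ 2 / (c * V) ≤ c * (n * V) / 8 := by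
      rw [div_le_iff₀ (by positivity)] at hK1
      rw [div_le_iff₀ (by positivity)]
      nlinarith
    have i8 := mul_le_mul_of_nonneg_left i5 hT'0.le
    linarith
  have hP2 : ∫ x in Aᶜ, ‖tsumS u ξ x‖ ∂m ≤ 3 * (c * (n * V)) / 8 := by
    have ht : 0 < b / (n * V) := by positivity
    have i2 := integral_norm_le_amgm (m.restrict Aᶜ) u hu1 ξ _ ht
    have i3 : ∫ x in Aᶜ, ‖tsumS u ξ x‖ ^ 2 ∂m ≤ ∫ x, ‖tsumS u ξ x‖ ^ 2 ∂m :=
      setIntegral_le_integral (integrable_norm_sq_tsumS m u hu1 ξ)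
        (ae_of_all _ fun x => by positivity)
    have i4 : (m.restrict Aᶜ).real Set.univ ≤ b * c / 4 := by
      rw [measureReal_restrict_apply_univ]; exact hAc
    have i5 : ∫ x in Aᶜ, ‖tsumS u ξ x‖ ∂m ≤
        (b / (n * V) * (n * M + (n : ℝ) ^ 2 * (C * V ^ 2)) + (b / (n * V))⁻¹ * (b * c / 4)) / 2 := by
      refine i2.trans ?_
      gcongr
      exact i3.trans hMm
    have i6 : (b / (n * V) * (n * M + (n : ℝ) ^ 2 * (C * V ^ 2)) +
        (b / (n * V))⁻¹ * (b * c / 4)) / 2 =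
        b * M / (2 * V) + b * C * (n * V) / 2 + c * (n * V) / 8 := by
      field_simp; ring
    have i7 : b * M / (2 * V) ≤ c * (n * V) / 8 := by
      rw [div_le_iff₀ (by positivity)] at hK2
      rw [div_le_iff₀ (by positivity)]
      nlinarith
    have i8 : b * C ≤ c / 4 := by
      rw [hb, div_mul_eq_mul_div, div_le_div_iff₀ (by positivity) (by positivity)]
      nlinarith
    have i9 : b * C * (n * V) / 2 ≤ c * (n * V) / 8 := by nlinarith
    linarith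
  have : 0 < c * (n * V) := by positivity
  linarith

end Crest.Agent.R104
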