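import Crest.Agent.R104.Iter
import Crest.Agent.R104.Algebra

set_option autoImplicit false

open Real
open scoped ComplexConjugate

namespace Crest.Agent.R104

variable {β c η : ℝ} {ω : ℂ}

lemma exists_pos_lower (p : ℕ) (f : ℕ → ℝ) (h : ∀ k, 0 < f k) :
    ∃ μ, 0 < μ ∧ ∀ k < p, μ ≤ f k := by
  induction p with
  | zero => exact ⟨1, one_pos, fun k hk => absurd hk (Nat.not_lt_zero _)⟩
  | succ p ih =>
    obtain ⟨μ, h0, h1⟩ := ih
    refine ⟨min μ (f p), lt_min h0 (h p), fun k hk => ?_⟩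
    rcases Nat.lt_succ_iff_lt_or_eq.1 hk with hk | rfl
    · exact (min_le_left _ _).trans (h1 k hk)
    · exact min_le_right _ _

lemma dirichlet' (hω : ‖ω‖ = 1) {Q : ℕ} (hQ : 0 < Q) {ε : ℝ} (hε : 0 < ε) :
    ∃ (j : ℕ) (τ : ℝ), Q ≤ j ∧ 0 < τ ∧ τ ≤ ε ∧ ‖ω ^ j - 1‖ ≤ τ ∧ τ * j ≤ 7 := by
  obtain ⟨M, hM⟩ := exists_nat_ge (7 * Q / ε)
  set N := M + 2 * Q ^ 2 with hN
  have hQ1 : Q ≤ Q ^ 2 := Nat.le_self_pow (by norm_num) Q
  have hQ' : (1 : ℝ) ≤ Q := by exact_mod_cast hQ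
  have hN0 : (0 : ℝ) < N := by exact_mod_cast (show 0 < N by omega)
  have hN1 : 2 * (Q : ℝ) ^ 2 ≤ N := by exact_mod_cast (show 2 * Q ^ 2 ≤ N by omega)
  have hN2 : 7 * Q / (N : ℝ) ≤ ε := by
    have : (M : ℝ) ≤ N := by exact_mod_cast (show M ≤ N by omega)
    rw [div_le_iff₀ hε] at hM
    rw [div_le_iff₀ hN0]
    nlinarith
  obtain ⟨j, hQj, hjN, hcase⟩ := dirichlet hω (N := N) hQ (by omega)
  rcases hcase with hA | ⟨hj, hB⟩
  · refine ⟨j, 7 / N, hQj, by positivity, le_trans ?_ hN2, hA, ?_⟩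
    · gcongr; linarith
    · have : (j : ℝ) ≤ N := by exact_mod_cast hjN
      rw [div_mul_eq_mul_div, div_le_iff₀ hN0]; linarith
  · refine ⟨j, 7 * Q / N, hQj, by positivity, hN2, hB, ?_⟩
    have : (j : ℝ) ≤ 2 * Q := by exact_mod_cast hj
    rw [div_mul_eq_mul_div, div_le_iff₀ hN0]; nlinarith

lemma base_int (P : Par β c η ω) (hu : ∀ k : ℕ, ∃ n : ℤ, β ^ k + c ^ k + 2 * (ω ^ k).re = n)
    (s k : ℕ) : ∃ n : ℤ, β ^ k * c ^ s + c ^ k * β ^ s + 2 * (ω ^ k * conj ω ^ s).re = n := by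
  rcases le_total s k with h | h
  · obtain ⟨l, rfl⟩ := Nat.exists_eq_add_of_le h
    obtain ⟨n, hn⟩ := hu l
    refine ⟨n, ?_⟩
    have e : ω ^ (s + l) * conj ω ^ s = ω ^ l := by
      rw [pow_add]; linear_combination (ω ^ l) * P.ωpow s
    rw [e, ← hn, pow_add, pow_add]
    linear_combination (β ^ l + c ^ l) * P.pow_mul s
  · obtain ⟨l, rfl⟩ := Nat.exists_eq_add_of_le h
    obtain ⟨n, hn⟩ := hu l
    refine ⟨n, ?_⟩
    have e : ω ^ k * conj ω ^ (k + l) = conj (ω ^ l) := by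
      rw [pow_add, map_pow]; linear_combination (conj ω ^ l) * P.ωpow k
    rw [e, Complex.conj_re, ← hn, pow_add, pow_add]
    linear_combination (β ^ l + c ^ l) * P.pow_mul k

lemma exists_first (P : Par β c η ω) (hu : ∀ k : ℕ, ∃ n : ℤ, β ^ k + c ^ k + 2 * (ω ^ k).re = n)
    (hβ : IsIntegral ℤ β) (hc : IsIntegral ℤ c) :
    ∃ (x y : ℝ) (z : ℂ) (q : ℕ) (μ : ℝ), Tri β c η ω x y z q (1 / 32) ∧
      (∀ k, ∃ n : ℤ, β ^ k * x + c ^ k * y + 2 * (ω ^ k * z).re = n) ∧ 0 < μ ∧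
      (∀ k < q, μ ≤ ac (β ^ k * x)) ∧ (∀ k < q, μ ≤ ac (c ^ k * y)) := by
  obtain ⟨s, hs⟩ := exists_pow_lt_of_lt_one P.η0 P.c1
  obtain ⟨Q, hQ⟩ := pow_unbounded_of_one_lt 2 P.β1
  obtain ⟨j, τ, hQj, -, hτ, hj, -⟩ := dirichlet' P.hω (Q := Q + 1) (by omega)
    (show (0 : ℝ) < 1 / 32 by norm_num)
  have hβj : 2 ≤ β ^ j := hQ.le.trans (pow_le_pow_right₀ P.β1.le (by omega))
  have hc0 := P.c0
  have hβ0 := P.β0
  have T0 : Tri β c η ω (c ^ s) (β ^ s) (conj ω ^ s) (s + s) 1 := by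
    refine ⟨fun k _ => base_int P hu s k, by positivity, hs.le, ?_, ?_, ?_⟩
    · rw [pow_add, mul_assoc, P.pow_mul, mul_one]; exact one_le_pow₀ P.β1.le
    · rw [abs_of_pos (by positivity), pow_add]
      have h1 := P.pow_mul s
      have h2 : 0 < β ^ s := by positivity
      calc β ^ s = c ^ s * (β ^ s * β ^ s) := by linear_combination (-(β ^ s)) * h1
        _ ≤ _ := by gcongr
    · rw [norm_pow, Complex.norm_conj, P.hω, one_pow]
  have T1 := (T0.step P hβj hj).mono (σ' := 1 / 32) (by linarith)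
  obtain ⟨μ1, h10, h11⟩ := exists_pos_lower (s + s + j)
    (fun k => ac (β ^ k * (c ^ s - c ^ j * c ^ s))) (fun k => abs_pos.2
      (cos_ne_zero_of_isIntegral ((hβ.pow k).mul ((hc.pow s).sub ((hc.pow j).mul (hc.pow s))))))
  obtain ⟨μ2, h20, h21⟩ := exists_pos_lower (s + s + j)
    (fun k => ac (c ^ k * (β ^ s - β ^ j * β ^ s))) (fun k => abs_pos.2
      (cos_ne_zero_of_isIntegral ((hc.pow k).mul ((hβ.pow s).sub ((hβ.pow j).mul (hβ.pow s))))))
  refine ⟨_, _, _, _, min μ1 μ2, T1, fun k => ?_, lt_min h10 h20,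
    fun k hk => (min_le_left _ _).trans (h11 k hk), fun k hk => (min_le_right _ _).trans (h21 k hk)⟩
  obtain ⟨n1, h1⟩ := base_int P hu s k
  obtain ⟨n2, h2⟩ := base_int P hu (j + s) k
  refine ⟨n1 - n2, ?_⟩
  push_cast
  rw [← h1, ← h2, mul_sub (ω ^ k), Complex.sub_re, pow_add, pow_add, pow_add]
  ring

theorem exists_state (P : Par β c η ω)
    (hu : ∀ k : ℕ, ∃ n : ℤ, β ^ k + c ^ k + 2 * (ω ^ k).re = n)
    (hβ : IsIntegral ℤ β) (hc : IsIntegral ℤ c) :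
    ∃ (μ : ℝ) (p0 : ℕ) (s0 x : ℝ) (p : ℕ) (s : ℝ), Glob c μ p0 s0 ∧ St β c η ω μ p0 s0 x p s := by
  obtain ⟨x, y, z, q, μ0, T, hint, hμ0, ha, hb⟩ := exists_first P hu hβ hc
  set μ := min μ0 (1 / 2) / 8 with hμ
  have hμpos : 0 < μ := by have := lt_min hμ0 (show (0 : ℝ) < 1 / 2 by norm_num); positivity
  have hμ1 : 8 * μ ≤ μ0 := by have := min_le_left μ0 (1 / 2); linarith
  have hμ2 : μ ≤ 1 / 16 := by have := min_le_right μ0 (1 / 2); linarith
  have hc0 := P.c0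
  have hη0 := P.η0
  have hη1 := P.η1
  obtain ⟨p1, hp1⟩ := Filter.eventually_atTop.1
    ((tendsto_self_mul_const_pow_of_lt_one P.c0.le P.c1).eventually (ge_mem_nhds hμpos))
  set p0 := p1 + 1 with hp0
  set s0 := max 1000 (-4 * Real.log (μ / 32)) with hs0
  have G : Glob c μ p0 s0 := by
    refine ⟨hμpos, by linarith, by omega, fun p hp => ?_, le_max_left _ _, ?_⟩
    · rw [mul_comm]; exact hp1 p (by omega)
    · calc Real.exp (-(s0 / 4)) ≤ Real.exp (Real.log (μ / 32)) := by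
            rw [Real.exp_le_exp]
            have := le_max_right 1000 (-4 * Real.log (μ / 32))
            linarith
        _ = μ / 32 := Real.exp_log (by positivity)
  have hsmall : ∀ r, p0 ≤ r → η * c ^ r ≤ μ / 16 := by
    intro r hr
    have h1 := G.hp r hr
    have h2 : (1 : ℝ) ≤ r := by exact_mod_cast G.p1.trans hr
    have h3 : 0 < c ^ r := by positivity
    have h4 : c ^ r ≤ μ := by nlinarith
    nlinarith
  obtain ⟨j, τ, hQj, hτ0, hτ, hj, hτj⟩ := dirichlet' P.hω (Q := 2 * q + p0) (by omega)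
    (lt_min hμpos (Real.exp_pos (-(s0 / 2))))
  have hτ1 : τ ≤ μ := hτ.trans (min_le_left _ _)
  have hτ2 : τ ≤ Real.exp (-(s0 / 2)) := hτ.trans (min_le_right _ _)
  obtain ⟨L, rfl⟩ : ∃ L, j = q + L := ⟨j - q, by omega⟩
  have T1 := T.step P (G.two_le P (by omega)) hj
  have hm1 := T.mu_step P le_rfl (L := L) (μ' := 4 * μ) (by linarith)
    (fun k hk => by
      have := (abs_le.1 (T.win1' P L hk)).1
      have := ha k hk
      have := hsmall L (by omega)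
      linarith)
    (fun l hl => by
      have := (abs_le.1 (T.win2' P hint l hj)).1
      have := hb l hl
      have := hsmall L (by omega)
      linarith)
  obtain ⟨L2, hL2⟩ : ∃ L2, (q + L) * 3 = q + (q + L) + L2 := ⟨(q + L) * 3 - (q + (q + L)), by omega⟩
  have hj2 : ‖ω ^ (q + (q + L) + L2) - 1‖ ≤ 3 * τ := by
    rw [← hL2, pow_mul]
    refine (norm_pow_sub_one_le (by rw [norm_pow, P.hω, one_pow]) _).trans ?_
    push_cast; gcongr
  have T2 := T1.step P (G.two_le P (by omega)) hj2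
  have hm2 := T1.mu_step' P (by linarith) (L := L2) (by omega) (μ' := 2 * μ) (by linarith)
    (by have := hsmall (q + (q + L)) (by omega); linarith) hm1
  have hs : s0 ≤ -2 * Real.log τ := by
    have := (Real.log_le_iff_le_exp hτ0).2 hτ2
    linarith
  have hs1 := G.s1
  refine ⟨μ, p0, s0, _, _, -2 * Real.log τ, G, ⟨_, _, T2.mono ?_⟩, by omega, hs, ?_, ?_⟩
  · have e : Real.exp (-(-2 * Real.log τ)) = τ ^ 2 := by
      rw [show -(-2 * Real.log τ) = (2 : ℕ) * Real.log τ by push_cast; ring, Real.exp_nat_mul,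
        Real.exp_log hτ0]
    rw [e]; nlinarith
  · have h1 : ((q + (q + L) + (q + (q + L) + L2) : ℕ) : ℝ) ≤ 5 * ((q + L : ℕ) : ℝ) := by
      exact_mod_cast (by omega)
    have h2 : ((q + L : ℕ) : ℝ) ≤ 7 * Real.exp (-Real.log τ) := by
      rw [Real.exp_neg, Real.exp_log hτ0, ← div_eq_mul_inv, le_div_iff₀ hτ0]; linarith
    calc _ ≤ 5 * ((q + L : ℕ) : ℝ) := h1
      _ ≤ 35 * Real.exp (-Real.log τ) := by linarith
      _ ≤ Real.exp 34 * Real.exp (-Real.log τ) := by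
          gcongr; exact le_exp_of_le (by norm_num)
      _ ≤ _ := by rw [← Real.exp_add, Real.exp_le_exp]; linarith
  · intro k hk
    refine le_trans ?_ (hm2 k hk)
    have h1 : (1 : ℝ) ≤ ((q + (q + L) + (q + (q + L) + L2) : ℕ) : ℝ) := by
      exact_mod_cast (by omega)
    have h2 : 1 / ((q + (q + L) + (q + (q + L) + L2) : ℕ) : ℝ) ≤ 1 := by
      rw [div_le_one (by linarith)]; exact h1
    nlinarith

end Crest.Agent.R104
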