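import Crest.Agent.R104.Step

set_option autoImplicit false

open Real
open scoped ComplexConjugate

namespace Crest.Agent.R104

/-- Global constants of the iteration. -/
structure Glob (c μ : ℝ) (p0 : ℕ) (s0 : ℝ) : Prop where
  μ0 : 0 < μ
  μ1 : μ ≤ 1 / 4
  p1 : 1 ≤ p0
  hp : ∀ p, p0 ≤ p → c ^ p * p ≤ μ
  s1 : 1000 ≤ s0
  hs : Real.exp (-(s0 / 4)) ≤ μ / 32

/-- A state of the iteration. -/
structure St (β c η : ℝ) (ω : ℂ) (μ : ℝ) (p0 : ℕ) (s0 : ℝ) (x : ℝ) (p : ℕ) (s : ℝ) : Prop where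
  tri : ∃ y z, Tri β c η ω x y z p (Real.exp (-s))
  hp : p0 ≤ p
  hs : s0 ≤ s
  hps : (p : ℝ) ≤ Real.exp (3 * s / 4)
  hμ : ∀ k < p, μ * (1 + 1 / p) ≤ ac (β ^ k * x)

variable {β c η : ℝ} {ω : ℂ} {μ : ℝ} {p0 : ℕ} {s0 x : ℝ} {p : ℕ} {s : ℝ}

lemma Glob.two_le (P : Par β c η ω) (G : Glob c μ p0 s0) {j : ℕ} (hj : p0 ≤ j) : 2 ≤ β ^ j := by
  have h1 := G.hp j hj
  have h2 : (1 : ℝ) ≤ j := by exact_mod_cast G.p1.trans hj
  have h3 := P.pow_mul j
  have hc := P.c0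
  have hβ := P.β0
  have h4 : 0 < c ^ j := by positivity
  have h5 : c ^ j ≤ 1 / 4 := by nlinarith [G.μ1]
  have h6 : 0 < β ^ j := by positivity
  nlinarith

lemma St.σ_le (G : Glob c μ p0 s0) (S : St β c η ω μ p0 s0 x p s) :
    Real.exp (-s) ≤ 1 / 32 := by
  have h1 := G.hs
  have h2 := G.μ1
  have : Real.exp (-s) ≤ Real.exp (-(s0 / 4)) := by
    rw [Real.exp_le_exp]; linarith [S.hs, G.s1]
  linarith

lemma St.δ_le (P : Par β c η ω) (G : Glob c μ p0 s0) (S : St β c η ω μ p0 s0 x p s) :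
    4 * (η * c ^ p + 2 * Real.exp (-s)) * p ≤ μ / 2 := by
  have h1 := G.hp p S.hp
  have h2 : Real.exp (-s) * p ≤ μ / 32 := by
    calc Real.exp (-s) * p ≤ Real.exp (-s) * Real.exp (3 * s / 4) := by gcongr; exact S.hps
      _ = Real.exp (-(s / 4)) := by rw [← Real.exp_add]; congr 1; ring
      _ ≤ Real.exp (-(s0 / 4)) := by rw [Real.exp_le_exp]; linarith [S.hs]
      _ ≤ _ := G.hs
  have h3 : η * (c ^ p * p) ≤ 1 / 16 * μ :=
    mul_le_mul P.η1 h1 (by have := P.c0; positivity) (by norm_num)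
  nlinarith

lemma St.hμ' (G : Glob c μ p0 s0) (S : St β c η ω μ p0 s0 x p s) :
    ∀ k < p, μ ≤ ac (β ^ k * x) := by
  intro k hk
  refine le_trans ?_ (S.hμ k hk)
  have := G.μ0
  have : (0 : ℝ) ≤ 1 / p := by positivity
  nlinarith

lemma le_exp_of_le {a b : ℝ} (h : a ≤ b + 1) : a ≤ Real.exp b := h.trans (Real.add_one_le_exp b)

lemma St.step (P : Par β c η ω) (G : Glob c μ p0 s0) (S : St β c η ω μ p0 s0 x p s) :
    ∃ x' p' s', St β c η ω μ p0 s0 x' p' s' ∧ 11 / 5 * s ≤ s' ∧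
      Real.exp (-(60 / (1 - c) + 120)) / 4 * WP β x p ^ 2 ≤ WP β x' p' := by
  obtain ⟨y, z, T⟩ := S.tri
  have hs : 1000 ≤ s := G.s1.trans S.hs
  have hp1 : 1 ≤ p := G.p1.trans S.hp
  have hp1' : (1 : ℝ) ≤ p := by exact_mod_cast hp1
  set N := ⌊Real.exp (2 * s)⌋₊ with hN
  have hNle : (N : ℝ) ≤ Real.exp (2 * s) := Nat.floor_le (Real.exp_pos _).le
  have hQN : 2 * (2 * p) ≤ N := by
    refine Nat.le_floor ?_
    push_cast
    calc (2 : ℝ) * (2 * p) = 4 * p := by ring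
      _ ≤ Real.exp 3 * Real.exp (3 * s / 4) := by
          gcongr
          · exact le_exp_of_le (by norm_num)
          · exact S.hps
      _ ≤ Real.exp (2 * s) := by rw [← Real.exp_add, Real.exp_le_exp]; linarith
  have hN1 : (1 : ℝ) ≤ N := by exact_mod_cast (show 1 ≤ N by omega)
  have hNinv : 1 / (N : ℝ) ≤ 2 * Real.exp (-(2 * s)) := by
    have h1 : Real.exp (2 * s) < N + 1 := Nat.lt_floor_add_one _
    rw [Real.exp_neg, div_le_iff₀ (by linarith), mul_assoc, inv_mul_eq_div, ← mul_div_assoc,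
      le_div_iff₀ (Real.exp_pos _)]
    linarith
  obtain ⟨j, hQj, hjN, hcase⟩ := dirichlet P.hω (Q := 2 * p) (by omega) hQN
  obtain ⟨L, rfl⟩ : ∃ L, j = p + L := ⟨j - p, by omega⟩
  have hL : p ≤ L := by omega
  have hσ := S.σ_le G
  have hδ := S.δ_le P G
  have hσL : Real.exp (-s) ^ 2 * L ≤ 1 := by
    have h1 : (L : ℝ) ≤ Real.exp (2 * s) := le_trans (by exact_mod_cast (by omega)) hNle
    calc Real.exp (-s) ^ 2 * L ≤ Real.exp (-s) ^ 2 * Real.exp (2 * s) := by gcongr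
      _ = 1 := by rw [← Real.exp_nat_mul, ← Real.exp_add]; simp
  have hW := T.W_step P hσ hL hσL G.μ0 hδ (S.hμ' G)
  have hβj : 2 ≤ β ^ (p + L) := G.two_le P (by have := S.hp; omega)
  have hμ' : ∀ k < p + (p + L), μ * (1 + 1 / ((p + (p + L) : ℕ) : ℝ)) ≤
      ac (β ^ k * (x - c ^ (p + L) * x)) := by
    have hp3 : 3 * (p : ℝ) ≤ ((p + (p + L) : ℕ) : ℝ) := by exact_mod_cast (by omega)
    have h1 : 1 / ((p + (p + L) : ℕ) : ℝ) ≤ 1 / (3 * p) :=
      one_div_le_one_div_of_le (by positivity) hp3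
    have h2 : 1 / (3 * (p : ℝ)) ≤ 1 := by
      rw [div_le_one (by positivity)]; linarith
    have hμ0 := G.μ0
    have hμ1 := G.μ1
    refine T.mu_step' P hσ hL (by nlinarith) ?_ S.hμ
    have h3 : 4 * (η * c ^ p + 2 * Real.exp (-s)) ≤ μ / 2 * (1 / p) := by
      rw [mul_one_div, le_div_iff₀ (by positivity)]; exact hδ
    have h4 : 1 / (3 * (p : ℝ)) = 1 / 3 * (1 / p) := by field_simp
    have h5 : (0 : ℝ) < 1 / p := by positivity
    nlinarith
  rcases hcase with hA | ⟨hj, hB⟩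
  · refine ⟨_, _, 3 * s - 13, ⟨⟨_, _, (T.step P hβj hA).mono ?_⟩, by have := S.hp; omega,
      by linarith [S.hs], ?_, hμ'⟩, by linarith, hW⟩
    · calc Real.exp (-s) * (7 / N) = 7 * Real.exp (-s) * (1 / N) := by ring
        _ ≤ 7 * Real.exp (-s) * (2 * Real.exp (-(2 * s))) := by gcongr
        _ = 14 * (Real.exp (-s) * Real.exp (-(2 * s))) := by ring
        _ ≤ Real.exp 13 * (Real.exp (-s) * Real.exp (-(2 * s))) := by
            gcongr; exact le_exp_of_le (by norm_num)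
        _ = _ := by rw [← Real.exp_add, ← Real.exp_add]; congr 1; ring
    · have h1 : ((p + (p + L) : ℕ) : ℝ) ≤ 2 * N := by exact_mod_cast (by omega)
      calc ((p + (p + L) : ℕ) : ℝ) ≤ 2 * N := h1
        _ ≤ Real.exp 1 * Real.exp (2 * s) := by
            gcongr; exact le_exp_of_le (by norm_num)
        _ ≤ _ := by rw [← Real.exp_add, Real.exp_le_exp]; linarith
  · refine ⟨_, _, 9 * s / 4 - 27, ⟨⟨_, _, (T.step P hβj hB).mono ?_⟩, by have := S.hp; omega,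
      by linarith [S.hs], ?_, hμ'⟩, by linarith, hW⟩
    · calc Real.exp (-s) * (7 * ((2 * p : ℕ) : ℝ) / N) = 14 * Real.exp (-s) * p * (1 / N) := by
            push_cast; ring
        _ ≤ 14 * Real.exp (-s) * Real.exp (3 * s / 4) * (2 * Real.exp (-(2 * s))) := by
            gcongr; exact S.hps
        _ = 28 * (Real.exp (-s) * Real.exp (3 * s / 4) * Real.exp (-(2 * s))) := by ring
        _ ≤ Real.exp 27 * (Real.exp (-s) * Real.exp (3 * s / 4) * Real.exp (-(2 * s))) := by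
            gcongr; exact le_exp_of_le (by norm_num)
        _ = _ := by rw [← Real.exp_add, ← Real.exp_add, ← Real.exp_add]; congr 1; ring
    · have h1 : ((p + (p + L) : ℕ) : ℝ) ≤ 5 * p := by exact_mod_cast (by omega)
      calc ((p + (p + L) : ℕ) : ℝ) ≤ 5 * p := h1
        _ ≤ Real.exp 4 * Real.exp (3 * s / 4) := by
            gcongr
            · exact le_exp_of_le (by norm_num)
            · exact S.hps
        _ ≤ _ := by rw [← Real.exp_add, Real.exp_le_exp]; linarith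

lemma St.WP_pos (G : Glob c μ p0 s0) (S : St β c η ω μ p0 s0 x p s) : 0 < WP β x p :=
  Finset.prod_pos fun k hk => G.μ0.trans_le (S.hμ' G k (Finset.mem_range.1 hk))

lemma St.iter (P : Par β c η ω) (G : Glob c μ p0 s0) (S : St β c η ω μ p0 s0 x p s) (K : ℝ) :
    ∃ x' p' s', St β c η ω μ p0 s0 x' p' s' ∧ K ≤ Real.exp s' * WP β x' p' ^ 2 := by
  set c1 := Real.exp (-(60 / (1 - c) + 120)) / 4 with hc1
  have hc10 : 0 < c1 := by positivity
  have hc11 : c1 ≤ 1 := by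
    have : Real.exp (-(60 / (1 - c) + 120)) ≤ 1 := by
      rw [Real.exp_le_one_iff]
      have : 0 < 1 - c := by linarith [P.c1]
      have : 0 < 60 / (1 - c) := by positivity
      linarith
    linarith
  have hW := S.WP_pos G
  set L0 := -Real.log (c1 * WP β x p) with hL0
  have key : ∀ i : ℕ, ∃ x' p' s', St β c η ω μ p0 s0 x' p' s' ∧ (11 / 5 : ℝ) ^ i ≤ s' ∧
      Real.exp (-(2 ^ i * L0)) ≤ c1 * WP β x' p' := by
    intro i
    induction i with
    | zero =>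
      refine ⟨x, p, s, S, by linarith [S.hs, G.s1], ?_⟩
      rw [pow_zero, one_mul, hL0, neg_neg, Real.exp_log (by positivity)]
    | succ i ih =>
      obtain ⟨x1, p1, s1, S1, h1, h2⟩ := ih
      obtain ⟨x2, p2, s2, S2, h3, h4⟩ := S1.step P G
      refine ⟨x2, p2, s2, S2, by rw [pow_succ]; linarith, ?_⟩
      calc Real.exp (-(2 ^ (i + 1) * L0)) = Real.exp (-(2 ^ i * L0)) ^ 2 := by
            rw [← Real.exp_nat_mul]; congr 1; push_cast; ring
        _ ≤ (c1 * WP β x1 p1) ^ 2 := by gcongr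
        _ = c1 * (c1 * WP β x1 p1 ^ 2) := by ring
        _ ≤ _ := by gcongr
  obtain ⟨i, hi⟩ := pow_unbounded_of_one_lt (2 * L0 + |K|) (show (1 : ℝ) < 11 / 10 by norm_num)
  obtain ⟨x', p', s', S', h1, h2⟩ := key i
  refine ⟨x', p', s', S', ?_⟩
  have hW' := S'.WP_pos G
  have h3 : Real.exp (-(2 ^ i * L0)) ≤ WP β x' p' := h2.trans (by nlinarith)
  have h4 : (11 / 5 : ℝ) ^ i = 2 ^ i * (11 / 10) ^ i := by rw [← mul_pow]; norm_num
  have h5 : (1 : ℝ) ≤ 2 ^ i := one_le_pow₀ (by norm_num)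
  have h6 : |K| ≤ s' - 2 * (2 ^ i * L0) := by
    have := abs_nonneg K
    nlinarith
  calc K ≤ |K| := le_abs_self K
    _ ≤ Real.exp (s' - 2 * (2 ^ i * L0)) := le_exp_of_le (by linarith)
    _ = Real.exp s' * Real.exp (-(2 ^ i * L0)) ^ 2 := by
        rw [← Real.exp_nat_mul, ← Real.exp_add]; congr 1; push_cast; ring
    _ ≤ _ := by gcongr

end Crest.Agent.R104
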