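import Mathlib
import Crest.Prelude.Def_BernoulliConv

set_option autoImplicit false

open MeasureTheory ProbabilityTheory Complex Crest.AnalysisR
open scoped ENNReal NNReal ComplexConjugate

namespace Crest.Agent.R104

instance fairCoin_prob : IsProbabilityMeasure fairCoin := by
  constructor
  simp [fairCoin, ENNReal.inv_two_add_inv_two]

/-- Prepend a sign. -/
def consB (b : Bool) (ε : ℕ → Bool) : ℕ → Bool
  | 0 => b
  | n + 1 => ε n

lemma measurable_consB (b : Bool) : Measurable (consB b) := by
  refine measurable_pi_lambda _ fun n => ?_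
  cases n with
  | zero => exact measurable_const
  | succ n => exact measurable_pi_apply n

lemma infinitePi_cons :
    (2⁻¹ : ℝ≥0∞) • (Measure.infinitePi (fun _ : ℕ => fairCoin)).map (consB true) +
      (2⁻¹ : ℝ≥0∞) • (Measure.infinitePi (fun _ : ℕ => fairCoin)).map (consB false) =
    Measure.infinitePi (fun _ : ℕ => fairCoin) := by
  classical
  refine Measure.eq_infinitePi _ fun s t ht => ?_
  obtain ⟨N, hN⟩ := Finset.exists_nat_subset_range s
  have hN' : s ⊆ Finset.range (N + 1) := hN.trans (Finset.range_subset_range.2 (Nat.le_succ N))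
  set t' : ℕ → Set Bool := fun i => if i ∈ s then t i else Set.univ with ht'
  have e1 : Set.pi (s : Set ℕ) t = Set.pi (Finset.range (N + 1) : Set ℕ) t' := by
    ext x
    simp only [Set.mem_pi, Finset.mem_coe, ht']
    constructor
    · intro h i _
      split_ifs with hi
      · exact h i hi
      · trivial
    · intro h i hi
      have := h i (hN' hi)
      rwa [if_pos hi] at this
  have e2 : ∏ i ∈ s, fairCoin (t i) = ∏ i ∈ Finset.range (N + 1), fairCoin (t' i) := by
    rw [← Finset.prod_subset hN' (f := fun i => fairCoin (t' i))]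
    · refine Finset.prod_congr rfl fun i hi => ?_
      simp [ht', hi]
    · intro i _ hi
      simp only [ht', hi, if_false, measure_univ]
  have hm : MeasurableSet (Set.pi (Finset.range (N + 1) : Set ℕ) t') :=
    MeasurableSet.pi (Finset.countable_toSet _) fun i _ => trivial
  have e3 : ∀ b : Bool, (Measure.infinitePi (fun _ : ℕ => fairCoin)).map (consB b)
      (Set.pi (Finset.range (N + 1) : Set ℕ) t') =
      Measure.dirac b (t' 0) * ∏ i ∈ Finset.range N, fairCoin (t' (i + 1)) := by
    intro b
    rw [Measure.map_apply (measurable_consB b) hm]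
    by_cases hb : b ∈ t' 0
    · have : consB b ⁻¹' (Set.pi (Finset.range (N + 1) : Set ℕ) t') =
          Set.pi (Finset.range N : Set ℕ) (fun i => t' (i + 1)) := by
        ext x
        simp only [Set.mem_preimage, Set.mem_pi, Finset.mem_coe, Finset.mem_range]
        constructor
        · intro h i hi
          exact h (i + 1) (by omega)
        · intro h i hi
          cases i with
          | zero => exact hb
          | succ i => exact h i (by omega)
      rw [this, Measure.infinitePi_pi _ (fun i _ => MeasurableSet.of_discrete)]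
      simp [hb]
    · have : consB b ⁻¹' (Set.pi (Finset.range (N + 1) : Set ℕ) t') = ∅ := by
        ext x
        simp only [Set.mem_preimage, Set.mem_pi, Finset.mem_coe, Finset.mem_range,
          Set.mem_empty_iff_false, iff_false]
        intro h
        exact hb (h 0 (by omega))
      rw [this]
      simp [hb]
  rw [e1, e2, Measure.add_apply, Measure.smul_apply, Measure.smul_apply, e3, e3,
    Finset.prod_range_succ']
  have : fairCoin (t' 0) = 2⁻¹ * Measure.dirac true (t' 0) + 2⁻¹ * Measure.dirac false (t' 0) := by
    simp [fairCoin]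
  rw [this]
  simp only [smul_eq_mul]
  ring

lemma summable_signed {c : ℝ} (hc0 : 0 ≤ c) (hc1 : c < 1) (ε : ℕ → Bool) :
    Summable fun n => (if ε n then c ^ n else -(c ^ n)) := by
  refine Summable.of_norm_bounded (summable_geometric_of_lt_one hc0 hc1) fun n => ?_
  split_ifs <;> simp [abs_of_nonneg hc0]

lemma measurable_signedPowerSum {c : ℝ} (hc0 : 0 ≤ c) (hc1 : c < 1) :
    Measurable (signedPowerSum c) := by
  refine measurable_of_tendsto_metrizable
    (f := fun N ε => ∑ n ∈ Finset.range N, (if ε n then c ^ n else -(c ^ n))) ?_ ?_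
  · intro N
    refine Finset.measurable_sum _ fun n _ => ?_
    exact (measurable_from_top (f := fun b : Bool => if b then c ^ n else -(c ^ n))).comp
      (measurable_pi_apply n)
  · rw [tendsto_pi_nhds]
    intro ε
    exact (summable_signed hc0 hc1 ε).hasSum.tendsto_sum_nat

lemma signedPowerSum_cons {c : ℝ} (hc0 : 0 ≤ c) (hc1 : c < 1) (b : Bool) (ε : ℕ → Bool) :
    signedPowerSum c (consB b ε) = (if b then 1 else -1) + c * signedPowerSum c ε := by
  unfold signedPowerSum
  rw [(summable_signed hc0 hc1 _).tsum_eq_zero_add, ← tsum_mul_left]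
  refine congrArg₂ (· + ·) ?_ ?_
  · cases b <;> simp [consB]
  · refine tsum_congr fun n => ?_
    simp only [consB]
    split_ifs <;> ring

/-- The self-similarity operator. -/
noncomputable def Phi (c : ℝ) (μ : Measure ℝ) : Measure ℝ :=
  (2⁻¹ : ℝ≥0∞) • μ.map (fun x => 1 + c * x) + (2⁻¹ : ℝ≥0∞) • μ.map (fun x => -1 + c * x)

lemma Phi_bernoulli {c : ℝ} (hc0 : 0 ≤ c) (hc1 : c < 1) :
    Phi c (bernoulliConvolution c) = bernoulliConvolution c := by
  have hm := measurable_signedPowerSum hc0 hc1
  unfold Phi bernoulliConvolution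
  conv_rhs => rw [← infinitePi_cons]
  rw [Measure.map_add _ _ hm, Measure.map_smul, Measure.map_smul,
    Measure.map_map (by fun_prop) hm, Measure.map_map (by fun_prop) hm,
    Measure.map_map hm (measurable_consB _), Measure.map_map hm (measurable_consB _)]
  congr 3
  · funext ε; simp [signedPowerSum_cons hc0 hc1]
  · funext ε; simp [signedPowerSum_cons hc0 hc1]

lemma Phi_add (c : ℝ) (μ ν : Measure ℝ) : Phi c (μ + ν) = Phi c μ + Phi c ν := by
  unfold Phi
  rw [Measure.map_add _ _ (by fun_prop), Measure.map_add _ _ (by fun_prop), smul_add, smul_add]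
  abel

lemma map_affine_volume {c : ℝ} (hc : c ≠ 0) (a : ℝ) :
    (volume : Measure ℝ).map (fun x => a + c * x) = ENNReal.ofReal |c⁻¹| • volume := by
  have : (fun x : ℝ => a + c * x) = (fun x => a + x) ∘ (fun x => c * x) := rfl
  rw [this, ← Measure.map_map (by fun_prop) (by fun_prop), Real.map_volume_mul_left hc,
    Measure.map_smul, map_add_left_eq_self]

lemma measurableEmbedding_affine {c : ℝ} (hc : c ≠ 0) (a : ℝ) :
    MeasurableEmbedding (fun x : ℝ => a + c * x) :=
  (measurableEmbedding_addLeft a).comp (measurableEmbedding_mulLeft₀ hc)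

lemma map_affine_ac {c : ℝ} (hc : c ≠ 0) (a : ℝ) {μ : Measure ℝ} (h : μ ≪ volume) :
    μ.map (fun x => a + c * x) ≪ volume := by
  refine (h.map (by fun_prop)).trans ?_
  rw [map_affine_volume hc]
  exact Measure.AbsolutelyContinuous.rfl.smul_left _

lemma map_affine_sing {c : ℝ} (hc : c ≠ 0) (a : ℝ) {μ : Measure ℝ} (h : μ ⟂ₘ volume) :
    μ.map (fun x => a + c * x) ⟂ₘ volume := by
  refine ((measurableEmbedding_affine hc a).mutuallySingular_map h).mono_ac
    Measure.AbsolutelyContinuous.rfl ?_
  rw [map_affine_volume hc]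
  refine Measure.absolutelyContinuous_smul ?_
  simpa using hc

lemma charFun_Phi (c : ℝ) (μ : Measure ℝ) [IsFiniteMeasure μ] (ξ : ℝ) :
    charFun (Phi c μ) ξ = Real.cos ξ * charFun μ (c * ξ) := by
  have key : ∀ a : ℝ, charFun (μ.map (fun x => a + c * x)) ξ =
      charFun μ (c * ξ) * cexp (a * ξ * I) := by
    intro a
    have : (fun x : ℝ => a + c * x) = (fun x => a + x) ∘ (fun x => c * x) := rfl
    rw [this, ← Measure.map_map (by fun_prop) (by fun_prop), charFun_map_const_add,
      charFun_map_mul]
    simp [mul_comm]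
  have hint : ∀ (ν : Measure ℝ) [IsFiniteMeasure ν],
      Integrable (fun x : ℝ => cexp (ξ * x * I)) ν := by
    intro ν _
    refine Integrable.of_bound (C := 1) (by fun_prop) (ae_of_all _ fun x => ?_)
    have : (ξ : ℂ) * x * I = ((ξ * x : ℝ) : ℂ) * I := by push_cast; ring
    rw [this, Complex.norm_exp_ofReal_mul_I]
  unfold Phi
  rw [charFun_apply_real, integral_add_measure ((hint _).smul_measure (by simp))
    ((hint _).smul_measure (by simp)), integral_smul_measure, integral_smul_measure,
    ← charFun_apply_real, ← charFun_apply_real, key, key]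
  rw [Complex.ofReal_cos, Complex.cos]
  simp only [ENNReal.toReal_inv, ENNReal.toReal_ofNat, real_smul]
  push_cast
  ring_nf

theorem acpart {c : ℝ} (hc0 : 0 < c) (hc1 : c < 1) :
    ∃ m : Measure ℝ, IsFiniteMeasure m ∧ m ≪ volume ∧
      (m = 0 → (bernoulliConvolution c).MutuallySingular volume) ∧
      ∀ ξ, charFun m ξ = Real.cos ξ * charFun m (c * ξ) := by
  set ν := bernoulliConvolution c with hν
  have hprob : IsProbabilityMeasure ν :=
    Measure.isProbabilityMeasure_map (measurable_signedPowerSum hc0.le hc1).aemeasurable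
  set m := (volume : Measure ℝ).withDensity (ν.rnDeriv volume) with hm
  have hdec : ν = ν.singularPart volume + m := Measure.haveLebesgueDecomposition_add ν volume
  have hfin : IsFiniteMeasure m := by rw [hm]; infer_instance
  have hac : m ≪ volume := withDensity_absolutelyContinuous _ _
  refine ⟨m, hfin, hac, ?_, ?_⟩
  · intro h0
    rw [hdec, h0, add_zero]
    exact Measure.mutuallySingular_singularPart ν volume
  · have hs : Phi c (ν.singularPart volume) ⟂ₘ volume :=
      ((map_affine_sing hc0.ne' 1 (Measure.mutuallySingular_singularPart ν volume)).smul _).add_left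
        ((map_affine_sing hc0.ne' (-1) (Measure.mutuallySingular_singularPart ν volume)).smul _)
    have ha : Phi c m ≪ volume :=
      ((map_affine_ac hc0.ne' 1 hac).smul_left _).add_left
        ((map_affine_ac hc0.ne' (-1) hac).smul_left _)
    have hfin' : IsFiniteMeasure (Phi c m) := by
      unfold Phi
      have : IsFiniteMeasure ((2⁻¹ : ℝ≥0∞) • m.map (fun x => 1 + c * x)) :=
        Measure.smul_finite _ (by simp)
      have : IsFiniteMeasure ((2⁻¹ : ℝ≥0∞) • m.map (fun x => -1 + c * x)) :=
        Measure.smul_finite _ (by simp)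
      infer_instance
    have e1 : ν = Phi c (ν.singularPart volume) +
        (volume : Measure ℝ).withDensity ((Phi c m).rnDeriv volume) := by
      rw [Measure.withDensity_rnDeriv_eq _ _ ha, ← Phi_add, ← hdec, hν, Phi_bernoulli hc0.le hc1]
    have e2 := Measure.eq_withDensity_rnDeriv (Measure.measurable_rnDeriv _ _) hs e1
    rw [Measure.withDensity_rnDeriv_eq _ _ ha, ← hm] at e2
    intro ξ
    rw [← charFun_Phi, e2]

end Crest.Agent.R104
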