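import Crest.Agent.R104.Init
import Crest.Agent.R104.Criterion
import Crest.Agent.R104.Measure

set_option autoImplicit false

open Real MeasureTheory Crest.AnalysisR
open scoped ComplexConjugate

namespace Crest.Agent.R104

variable {β c η : ℝ} {ω : ℂ}

lemma charFun_prod_formula (hbc : β * c = 1) {m : Measure ℝ}
    (hm : ∀ ξ, charFun m ξ = Real.cos ξ * charFun m (c * ξ)) (x : ℝ) (K : ℕ) :
    ‖charFun m (π * (β ^ K * (c * x)))‖ = WP β x K * ‖charFun m (π * (c * x))‖ := by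
  induction K with
  | zero => simp [WP]
  | succ K ih =>
    have e1 : π * (β ^ (K + 1) * (c * x)) = π * (β ^ K * x) := by
      rw [pow_succ]; linear_combination (π * β ^ K * x) * hbc
    have e2 : c * (π * (β ^ K * x)) = π * (β ^ K * (c * x)) := by ring
    rw [e1, hm, e2, norm_mul, ih, Complex.norm_real, Real.norm_eq_abs, WP, WP,
      Finset.prod_range_succ, ac]
    ring

theorem final_test (P : Par β c η ω) {μ : ℝ} {p0 : ℕ} {s0 x : ℝ} {p : ℕ} {s : ℝ}
    (G : Glob c μ p0 s0) (S : St β c η ω μ p0 s0 x p s) {m : Measure ℝ}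
    (hm : ∀ ξ, charFun m ξ = Real.cos ξ * charFun m (c * ξ))
    (hη : ∀ ξ, |ξ| ≤ 4 * η → m.real Set.univ / 2 ≤ ‖charFun m ξ‖) :
    ∃ (n : ℕ) (ξ : Fin n → ℝ), Real.exp s ≤ n ∧
      (∀ i, m.real Set.univ / 2 * Real.exp (-(60 / (1 - c) + 120)) * WP β x p ≤
        ‖charFun m (ξ i)‖) ∧
      (∀ i j, i ≠ j → ‖charFun m (ξ i - ξ j)‖ ≤ 4 * m.real Set.univ * WP β x p ^ 2) ∧
      (∀ i j, i ≠ j → (n : ℝ) ≤ |ξ i - ξ j|) := by
  obtain ⟨y, z, T⟩ := S.tri
  have hs : 1000 ≤ s := G.s1.trans S.hs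
  have hp1 : 1 ≤ p := G.p1.trans S.hp
  have hM0 : 0 ≤ m.real Set.univ := measureReal_nonneg
  have hc0 := P.c0
  have hc1 := P.c1
  have hβ0 := P.β0
  have hx0 := T.x0
  have hπ := Real.pi_pos
  set n := ⌈Real.exp s⌉₊ with hn
  have hn1 : Real.exp s ≤ n := Nat.le_ceil _
  have hn2 : (n : ℝ) ≤ 2 * Real.exp s := by
    have h1 : (n : ℝ) < Real.exp s + 1 := Nat.ceil_lt_add_one (Real.exp_pos _).le
    have h2 : 1 ≤ Real.exp s := Real.one_le_exp (by linarith)
    linarith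
  have hn0 : 1 ≤ n := Nat.one_le_iff_ne_zero.2 (Nat.ceil_pos.2 (Real.exp_pos _)).ne'
  set ξ : Fin n → ℝ := fun i => π * (β ^ ((n + i) * (2 * p)) * (c * x)) with hξ
  have hdiff : ∀ i j : Fin n, j < i → ∃ L r : ℕ, p ≤ L ∧ n * p ≤ L + r ∧
      ξ i - ξ j = π * (β ^ (p + L + p + r) * (c * (x - c ^ (p + L) * x))) := by
    intro i j hij
    have hij' : (j : ℕ) < i := hij
    obtain ⟨d, hd⟩ : ∃ d, (i : ℕ) = j + (d + 1) := ⟨i - j - 1, by omega⟩
    obtain ⟨n', hn'⟩ : ∃ n', n = n' + 1 := ⟨n - 1, by omega⟩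
    refine ⟨d * (2 * p) + p, (n' + j) * (2 * p) + p, by omega, by nth_rewrite 1 [hn']; nlinarith, ?_⟩
    have e1 : (n + i) * (2 * p) = p + (d * (2 * p) + p) + (p + ((n' + j) * (2 * p) + p)) := by
      rw [hd]; nth_rewrite 1 [hn']; ring
    have e2 : (n + j) * (2 * p) = p + ((n' + j) * (2 * p) + p) := by
      nth_rewrite 1 [hn']; ring
    have e3 := shift_eq P x (p + (d * (2 * p) + p)) (p + ((n' + j) * (2 * p) + p))
    simp only [hξ]
    rw [e1, e2, add_assoc (p + (d * (2 * p) + p))]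
    linear_combination (-(π * c)) * e3
  have hup : ∀ i j : Fin n, j < i →
      ‖charFun m (ξ i - ξ j)‖ ≤ 4 * m.real Set.univ * WP β x p ^ 2 := by
    intro i j hij
    obtain ⟨L, r, hL, -, e⟩ := hdiff i j hij
    rw [e, charFun_prod_formula P.bc hm]
    have h1 := T.W_upper P hL G.μ0 (S.δ_le P G) (S.hμ' G) r
    calc _ ≤ (4 * WP β x p ^ 2) * m.real Set.univ :=
          mul_le_mul h1 (norm_charFun_le _) (norm_nonneg _) (by positivity)
      _ = _ := by ring
  have hsep : ∀ i j : Fin n, j < i → (n : ℝ) ≤ ξ i - ξ j := by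
    intro i j hij
    obtain ⟨L, r, hL, hr, e⟩ := hdiff i j hij
    rw [e]
    have hβp : 2 ≤ β ^ p := G.two_le P S.hp
    have hβj : 2 ≤ β ^ (p + L) := G.two_le P (by have := S.hp; omega)
    have hcj : c ^ (p + L) ≤ 1 / 2 := by
      have := P.pow_mul (p + L)
      have : 0 < c ^ (p + L) := by positivity
      nlinarith
    have h1 : x / 2 ≤ x - c ^ (p + L) * x := by nlinarith
    have h2 : 1 ≤ β ^ p * c := by
      obtain ⟨q, rfl⟩ : ∃ q, p = q + 1 := ⟨p - 1, by omega⟩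
      rw [pow_succ, mul_assoc, P.bc, mul_one]
      exact one_le_pow₀ P.β1.le
    have h3 : (n : ℝ) ≤ β ^ (L + r) := by
      calc (n : ℝ) ≤ 2 ^ n := by exact_mod_cast Nat.lt_two_pow_self.le
        _ ≤ (β ^ p) ^ n := by gcongr
        _ = β ^ (n * p) := by rw [← pow_mul, mul_comm]
        _ ≤ _ := pow_le_pow_right₀ P.β1.le hr
    have h4 : 2 ≤ π := Real.two_le_pi
    calc (n : ℝ) = 2 * (n * 1 * (1 / 2)) := by ring
      _ ≤ π * (β ^ (L + r) * (β ^ p * c) * (β ^ p * x / 2)) := by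
          gcongr
          exact T.x2
      _ = π * (β ^ (p + L + p + r) * (c * (x / 2))) := by ring
      _ ≤ _ := by gcongr
  refine ⟨n, ξ, hn1, fun i => ?_, fun i j hij => ?_, fun i j hij => ?_⟩
  · simp only [hξ]
    rw [charFun_prod_formula P.bc hm]
    obtain ⟨L, hL⟩ : ∃ L, (n + i) * (2 * p) = p + L := by
      refine Nat.exists_eq_add_of_le ?_
      nlinarith
    have hL' : L ≤ 4 * n * p := by
      have := i.2
      nlinarith
    have hσL : Real.exp (-s) ^ 2 * L ≤ 1 := by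
      have h1 : (L : ℝ) ≤ 4 * n * p := by exact_mod_cast hL'
      have h2 : (L : ℝ) ≤ Real.exp (2 * s) := by
        calc (L : ℝ) ≤ 4 * n * p := h1
          _ ≤ 4 * (2 * Real.exp s) * Real.exp (3 * s / 4) := by gcongr; exact S.hps
          _ = 8 * (Real.exp s * Real.exp (3 * s / 4)) := by ring
          _ ≤ Real.exp 7 * (Real.exp s * Real.exp (3 * s / 4)) := by
              gcongr; exact le_exp_of_le (by norm_num)
          _ ≤ _ := by rw [← Real.exp_add, ← Real.exp_add, Real.exp_le_exp]; linarith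
      calc Real.exp (-s) ^ 2 * L ≤ Real.exp (-s) ^ 2 * Real.exp (2 * s) := by gcongr
        _ = 1 := by rw [← Real.exp_nat_mul, ← Real.exp_add]; simp
    have h1 := T.W_lower P (S.σ_le G) hσL
    have h2 : m.real Set.univ / 2 ≤ ‖charFun m (π * (c * x))‖ := by
      refine hη _ ?_
      rw [abs_of_pos (by positivity)]
      have := Real.pi_le_four
      have h3 : c * x ≤ η := by nlinarith [T.x1]
      gcongr
    rw [hL]
    calc _ = (Real.exp (-(60 / (1 - c) + 120)) * WP β x p) * (m.real Set.univ / 2) := by ring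
      _ ≤ _ := mul_le_mul h1 h2 (by positivity) (WP_nonneg _ _ _)
  · rcases lt_or_gt_of_ne hij with h | h
    · rw [← neg_sub, charFun_neg, Complex.norm_conj]; exact hup j i h
    · exact hup i j h
  · rcases lt_or_gt_of_ne hij with h | h
    · rw [abs_sub_comm]; exact (hsep j i h).trans (le_abs_self _)
    · exact (hsep i j h).trans (le_abs_self _)

theorem main (β : ℝ) (hβ : IsQuarticSalem β) :
    (bernoulliConvolution β⁻¹).MutuallySingular (volume : Measure ℝ) := by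
  have h1 := hβ.1
  have hc0 : 0 < β⁻¹ := by positivity
  have hc1 : β⁻¹ < 1 := inv_lt_one_of_one_lt₀ h1
  obtain ⟨m, hfin, hac, hzero, hm⟩ := acpart hc0 hc1
  refine hzero ?_
  by_contra hne
  have hM : 0 < m.real Set.univ := by
    rw [measureReal_def]
    exact ENNReal.toReal_pos (by simpa using hne) (measure_ne_top _ _)
  obtain ⟨ω, hω, hu, hint⟩ := salem_data hβ
  obtain ⟨η, hη0, hη1, hη⟩ : ∃ η : ℝ, 0 < η ∧ η ≤ 1 / 16 ∧
      ∀ ξ, |ξ| ≤ 4 * η → m.real Set.univ / 2 ≤ ‖charFun m ξ‖ := by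
    have hcont : ContinuousAt (fun ξ => ‖charFun m ξ‖) 0 :=
      (continuous_charFun (μ := m)).norm.continuousAt
    have h0 : m.real Set.univ / 2 < ‖charFun m 0‖ := by
      rw [charFun_zero, Complex.norm_real, Real.norm_eq_abs, abs_of_pos hM]; linarith
    obtain ⟨δ, hδ0, hδ⟩ := Metric.eventually_nhds_iff.1 (hcont.eventually (lt_mem_nhds h0))
    refine ⟨min (δ / 8) (1 / 16), by positivity, min_le_right _ _, fun ξ hξ => (hδ ?_).le⟩
    rw [Real.dist_eq, sub_zero]
    have := min_le_left (δ / 8) (1 / 16)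
    linarith
  have P : Par β β⁻¹ η ω := ⟨mul_inv_cancel₀ (by linarith), hc0, hc1, hη0, hη1, hω⟩
  obtain ⟨μ, p0, s0, x, p, s, G, S⟩ := exists_state P hu hβ.2.1 hint
  refine criterion m hac (m.real Set.univ / 2 * Real.exp (-(60 / (1 - β⁻¹) + 120)))
    (4 * m.real Set.univ) (by positivity) (by positivity) fun K => ?_
  obtain ⟨x', p', s', S', hK⟩ := S.iter P G K
  obtain ⟨n, ξ, hn, h2, h3, h4⟩ := final_test P G S' hm hη
  refine ⟨n, WP β x' p', ξ, S'.WP_pos G, hK.trans ?_, h2, h3, h4⟩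
  gcongr

end Crest.Agent.R104
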