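import Crest.Agent.R104.Trig

set_option autoImplicit false

open Real
open scoped ComplexConjugate

namespace Crest.Agent.R104

/-- Standing hypotheses on the parameters. -/
structure Par (β c η : ℝ) (ω : ℂ) : Prop where
  bc : β * c = 1
  c0 : 0 < c
  c1 : c < 1
  η0 : 0 < η
  η1 : η ≤ 1 / 16
  hω : ‖ω‖ = 1

/-- A triple with integer traces beyond the window. -/
structure Tri (β c η : ℝ) (ω : ℂ) (x y : ℝ) (z : ℂ) (p : ℕ) (σ : ℝ) : Prop where
  int : ∀ k, p ≤ k → ∃ n : ℤ, β ^ k * x + c ^ k * y + 2 * (ω ^ k * z).re = n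
  x0 : 0 < x
  x1 : x ≤ η
  x2 : 1 ≤ β ^ p * x
  y1 : |y| ≤ η * β ^ p
  z1 : ‖z‖ ≤ σ

/-- The window product. -/
noncomputable def WP (β x : ℝ) (p : ℕ) : ℝ := ∏ k ∈ Finset.range p, ac (β ^ k * x)

variable {β c η : ℝ} {ω : ℂ} {x y : ℝ} {z : ℂ} {p : ℕ} {σ : ℝ}

lemma Par.β0 (P : Par β c η ω) : 0 < β := by
  have := P.bc
  have := P.c0
  by_contra h
  push Not at h
  nlinarith

lemma Par.β1 (P : Par β c η ω) : 1 < β := by
  have := P.bc
  have := P.c0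
  have := P.c1
  have := P.β0
  nlinarith

lemma Par.pow_mul (P : Par β c η ω) (k : ℕ) : β ^ k * c ^ k = 1 := by
  rw [← mul_pow, P.bc, one_pow]

lemma Par.ωpow (P : Par β c η ω) (k : ℕ) : ω ^ k * conj ω ^ k = 1 := by
  rw [← mul_pow, Complex.mul_conj', P.hω]; simp

lemma WP_nonneg (β x : ℝ) (p : ℕ) : 0 ≤ WP β x p :=
  Finset.prod_nonneg fun _ _ => ac_nonneg _

lemma WP_le_one (β x : ℝ) (p : ℕ) : WP β x p ≤ 1 :=
  Finset.prod_le_one (fun _ _ => ac_nonneg _) fun _ _ => ac_le_one _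

lemma WP_add (β x : ℝ) (p q : ℕ) :
    WP β x (p + q) = WP β x p * ∏ l ∈ Finset.range q, ac (β ^ (p + l) * x) :=
  Finset.prod_range_add _ _ _

lemma Tri.σ0 (T : Tri β c η ω x y z p σ) : 0 ≤ σ := (norm_nonneg _).trans T.z1

lemma Tri.mono (T : Tri β c η ω x y z p σ) {σ' : ℝ} (h : σ ≤ σ') : Tri β c η ω x y z p σ' :=
  ⟨T.int, T.x0, T.x1, T.x2, T.y1, T.z1.trans h⟩

lemma re_le (P : Par β c η ω) (k : ℕ) (z : ℂ) : |(ω ^ k * z).re| ≤ ‖z‖ := by
  refine (Complex.abs_re_le_norm _).trans ?_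
  rw [norm_mul, norm_pow, P.hω, one_pow, one_mul]

lemma Tri.ybound (P : Par β c η ω) (T : Tri β c η ω x y z p σ) (l : ℕ) :
    |c ^ (p + l) * y| ≤ η * c ^ l := by
  have hc := P.c0
  rw [abs_mul, abs_of_pos (by positivity)]
  calc c ^ (p + l) * |y| ≤ c ^ (p + l) * (η * β ^ p) := by gcongr; exact T.y1
    _ = η * c ^ l * (β ^ p * c ^ p) := by ring
    _ = η * c ^ l := by rw [P.pow_mul, mul_one]

lemma Tri.near (P : Par β c η ω) (T : Tri β c η ω x y z p σ) (l : ℕ) :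
    ∃ n : ℤ, |β ^ (p + l) * x - n| ≤ η * c ^ l + 2 * σ := by
  obtain ⟨n, hn⟩ := T.int (p + l) (Nat.le_add_right _ _)
  refine ⟨n, ?_⟩
  have h1 := abs_le.1 (T.ybound P l)
  have h2 := abs_le.1 ((re_le P (p + l) z).trans T.z1)
  rw [abs_le]
  constructor <;> linarith [h1.1, h1.2, h2.1, h2.2]

lemma Tri.step (P : Par β c η ω) (T : Tri β c η ω x y z p σ) {j : ℕ} (hj : 2 ≤ β ^ j) {τ : ℝ}
    (hτ : ‖ω ^ j - 1‖ ≤ τ) :
    Tri β c η ω (x - c ^ j * x) (y - β ^ j * y) (z - conj ω ^ j * z) (p + j) (σ * τ) := by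
  have hc := P.c0
  have hβ := P.β0
  have hx := T.x0
  have hbj := P.pow_mul j
  have hcj : c ^ j ≤ 1 / 2 := by
    have : 0 < c ^ j := by positivity
    nlinarith
  refine ⟨?_, ?_, ?_, ?_, ?_, ?_⟩
  · intro k hk
    obtain ⟨l, rfl⟩ : ∃ l, k = l + j := ⟨k - j, by omega⟩
    obtain ⟨n1, h1⟩ := T.int (l + j) (by omega)
    obtain ⟨n2, h2⟩ := T.int l (by omega)
    refine ⟨n1 - n2, ?_⟩
    have e : ω ^ (l + j) * (z - conj ω ^ j * z) = ω ^ (l + j) * z - ω ^ l * z := by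
      have := P.ωpow j
      rw [pow_add]
      linear_combination (-(ω ^ l * z)) * this
    rw [e, Complex.sub_re]
    push_cast
    rw [← h1, ← h2, pow_add, pow_add]
    linear_combination (-(β ^ l * x) - c ^ l * y) * hbj
  · nlinarith
  · have : 0 < c ^ j * x := by positivity
    linarith [T.x1]
  · have e : β ^ (p + j) * (x - c ^ j * x) = (β ^ p * x) * (β ^ j - 1) := by
      rw [pow_add]; linear_combination (-(β ^ p * x)) * hbj
    rw [e]
    have := T.x2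
    nlinarith
  · have e : y - β ^ j * y = -((β ^ j - 1) * y) := by ring
    rw [e, abs_neg, abs_mul, abs_of_nonneg (by linarith)]
    have hη := P.η0
    calc (β ^ j - 1) * |y| ≤ β ^ j * (η * β ^ p) := by
          gcongr
          · linarith
          · exact T.y1
      _ = η * β ^ (p + j) := by ring
  · have e : z - conj ω ^ j * z = -(conj (ω ^ j - 1) * z) := by
      simp only [map_sub, map_pow, map_one]; ring
    rw [e, norm_neg, norm_mul, Complex.norm_conj, mul_comm]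
    exact mul_le_mul T.z1 hτ (norm_nonneg _) T.σ0

lemma Tri.xsmall (P : Par β c η ω) (T : Tri β c η ω x y z p σ) (k l : ℕ) :
    |β ^ k * (c ^ (k + l) * x)| ≤ η * c ^ l := by
  have hc := P.c0
  have hx := T.x0
  have e : β ^ k * (c ^ (k + l) * x) = x * c ^ l := by
    rw [pow_add]; linear_combination (c ^ l * x) * P.pow_mul k
  rw [e, abs_of_pos (by positivity)]
  gcongr
  exact T.x1

lemma Tri.win1 (P : Par β c η ω) (T : Tri β c η ω x y z p σ) {L : ℕ} (hL : p ≤ L) {k : ℕ}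
    (hk : k < p) :
    |ac (β ^ k * (x - c ^ (p + L) * x)) - ac (β ^ k * x)| ≤ 4 * (η * c ^ p) := by
  refine ac_near ⟨0, ?_⟩
  obtain ⟨l, hl⟩ : ∃ l, p + L = k + l := ⟨p + L - k, by omega⟩
  have h1 := T.xsmall P k l
  have e : β ^ k * (x - c ^ (p + L) * x) - β ^ k * x - ((0 : ℤ) : ℝ) =
      -(β ^ k * (c ^ (k + l) * x)) := by rw [hl]; push_cast; ring
  rw [e, abs_neg]
  refine h1.trans ?_
  have hη := P.η0
  gcongr η * ?_
  exact pow_le_pow_of_le_one P.c0.le P.c1.le (by omega)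

lemma Tri.win1' (P : Par β c η ω) (T : Tri β c η ω x y z p σ) (L : ℕ) {k : ℕ}
    (hk : k < p) :
    |ac (β ^ k * (x - c ^ (p + L) * x)) - ac (β ^ k * x)| ≤ 4 * (η * c ^ L) := by
  refine ac_near ⟨0, ?_⟩
  obtain ⟨l, hl⟩ : ∃ l, p + L = k + l := ⟨p + L - k, by omega⟩
  have h1 := T.xsmall P k l
  have e : β ^ k * (x - c ^ (p + L) * x) - β ^ k * x - ((0 : ℤ) : ℝ) =
      -(β ^ k * (c ^ (k + l) * x)) := by rw [hl]; push_cast; ring
  rw [e, abs_neg]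
  refine h1.trans ?_
  have hη := P.η0
  gcongr η * ?_
  exact pow_le_pow_of_le_one P.c0.le P.c1.le (by omega)

lemma shift_eq (P : Par β c η ω) (x : ℝ) (j l : ℕ) :
    β ^ (j + l) * (x - c ^ j * x) = β ^ (j + l) * x - β ^ l * x := by
  rw [pow_add]; linear_combination (-(β ^ l * x)) * P.pow_mul j

lemma Tri.win2 (P : Par β c η ω) (T : Tri β c η ω x y z p σ) {L : ℕ} (hL : p ≤ L) (l : ℕ) :
    |ac (β ^ (p + L + l) * (x - c ^ (p + L) * x)) - ac (β ^ l * x)| ≤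
      4 * (η * c ^ p + 2 * σ) := by
  rw [← ac_neg (β ^ l * x)]
  obtain ⟨n, hn⟩ := T.near P (L + l)
  refine ac_near ⟨n, ?_⟩
  rw [shift_eq P, ← add_assoc] at *
  have e : β ^ (p + L + l) * x - β ^ l * x - -(β ^ l * x) - n = β ^ (p + L + l) * x - n := by ring
  rw [e]
  refine hn.trans ?_
  have hη := P.η0
  gcongr η * ?_ + _
  exact pow_le_pow_of_le_one P.c0.le P.c1.le (by omega)

lemma Tri.win2' (P : Par β c η ω) (T : Tri β c η ω x y z p σ)
    (hint : ∀ k, ∃ n : ℤ, β ^ k * x + c ^ k * y + 2 * (ω ^ k * z).re = n)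
    {L : ℕ} (l : ℕ) {τ : ℝ} (hτ : ‖ω ^ (p + L) - 1‖ ≤ τ) :
    |ac (β ^ (p + L + l) * (x - c ^ (p + L) * x)) - ac (c ^ l * y)| ≤
      4 * (η * c ^ L + 2 * (σ * τ)) := by
  obtain ⟨n1, h1⟩ := hint (p + L + l)
  obtain ⟨n2, h2⟩ := hint l
  refine ac_near ⟨n1 - n2, ?_⟩
  rw [shift_eq P]
  have e1 : (ω ^ (p + L + l) * z).re - (ω ^ l * z).re =
      (ω ^ l * ((ω ^ (p + L) - 1) * z)).re := by
    rw [← Complex.sub_re]; congr 1; ring
  have b1 : |(ω ^ l * ((ω ^ (p + L) - 1) * z)).re| ≤ σ * τ := by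
    refine (re_le P _ _).trans ?_
    rw [norm_mul, mul_comm]
    exact mul_le_mul T.z1 hτ (norm_nonneg _) T.σ0
  have b2 : |c ^ (p + L + l) * y| ≤ η * c ^ L := by
    rw [add_assoc]
    refine (T.ybound P (L + l)).trans ?_
    have hη := P.η0
    gcongr η * ?_
    exact pow_le_pow_of_le_one P.c0.le P.c1.le (by omega)
  rw [← e1] at b1
  have b1' := abs_le.1 b1
  have b2' := abs_le.1 b2
  push_cast
  rw [← h1, ← h2, abs_le]
  constructor <;> linarith [b1'.1, b1'.2, b2'.1, b2'.2]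

lemma Tri.mid (P : Par β c η ω) (T : Tri β c η ω x y z p σ) {L l : ℕ} (hl : l < L) :
    ∃ n : ℤ, |β ^ (p + l) * (x - c ^ (p + L) * x) - n| ≤
      c ^ l / 16 + c ^ (L - l) / 16 + 2 * σ := by
  obtain ⟨n, hn⟩ := T.near P l
  refine ⟨n, ?_⟩
  have h1 := T.xsmall P (p + l) (L - l)
  have e : p + l + (L - l) = p + L := by omega
  rw [e] at h1
  have hc := P.c0
  have hη := P.η1
  have b1 : η * c ^ l ≤ c ^ l / 16 := by
    have : 0 < c ^ l := by positivity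
    nlinarith
  have b2 : η * c ^ (L - l) ≤ c ^ (L - l) / 16 := by
    have : 0 < c ^ (L - l) := by positivity
    nlinarith
  have hn' := abs_le.1 hn
  have h1' := abs_le.1 h1
  rw [abs_le, mul_sub]
  constructor <;> linarith [hn'.1, hn'.2, h1'.1, h1'.2]

lemma Tri.mid0 (P : Par β c η ω) (T : Tri β c η ω x y z p σ) (L l : ℕ) :
    ∃ n : ℤ, |β ^ (p + l) * x - n| ≤ c ^ l / 16 + c ^ (L - l) / 16 + 2 * σ := by
  obtain ⟨n, hn⟩ := T.near P l
  refine ⟨n, hn.trans ?_⟩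
  have hc := P.c0
  have hη := P.η1
  have b1 : η * c ^ l ≤ c ^ l / 16 := by
    have : 0 < c ^ l := by positivity
    nlinarith
  have : 0 < c ^ (L - l) := by positivity
  linarith

/-- Propagation of the lower bound on the cosines, given bounds in the two windows. -/
lemma Tri.mu_step (P : Par β c η ω) (T : Tri β c η ω x y z p σ) (hσ : σ ≤ 1 / 32) {L : ℕ}
    {μ' : ℝ} (hμ : μ' ≤ 1 / 2)
    (h1 : ∀ k < p, μ' ≤ ac (β ^ k * (x - c ^ (p + L) * x)))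
    (h2 : ∀ l < p, μ' ≤ ac (β ^ (p + L + l) * (x - c ^ (p + L) * x))) :
    ∀ k < p + (p + L), μ' ≤ ac (β ^ k * (x - c ^ (p + L) * x)) := by
  intro k hk
  by_cases hk1 : k < p
  · exact h1 k hk1
  by_cases hk2 : k < p + L
  · obtain ⟨l, rfl⟩ : ∃ l, k = p + l := ⟨k - p, by omega⟩
    exact hμ.trans (middle_half P.c0.le P.c1 T.σ0 hσ (T.mid P (by omega)))
  · obtain ⟨l, rfl⟩ : ∃ l, k = p + L + l := ⟨k - (p + L), by omega⟩
    exact h2 l (by omega)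

lemma Tri.mu_step' (P : Par β c η ω) (T : Tri β c η ω x y z p σ) (hσ : σ ≤ 1 / 32) {L : ℕ}
    (hL : p ≤ L) {μ μ' : ℝ} (hμ : μ' ≤ 1 / 2) (hμ' : μ' ≤ μ - 4 * (η * c ^ p + 2 * σ))
    (h : ∀ k < p, μ ≤ ac (β ^ k * x)) :
    ∀ k < p + (p + L), μ' ≤ ac (β ^ k * (x - c ^ (p + L) * x)) := by
  refine T.mu_step P hσ hμ (fun k hk => ?_) (fun l hl => ?_)
  · have := (abs_le.1 (T.win1 P hL hk)).1
    have := h k hk
    have := T.σ0
    linarith
  · have := (abs_le.1 (T.win2 P hL l)).1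
    have := h l hl
    linarith

lemma Tri.windows (P : Par β c η ω) (T : Tri β c η ω x y z p σ) {L : ℕ}
    (hL : p ≤ L) {μ : ℝ} (hμ : 0 < μ) (hδ : 4 * (η * c ^ p + 2 * σ) * p ≤ μ / 2)
    (h : ∀ k < p, μ ≤ ac (β ^ k * x)) :
    (WP β x p / 2 ≤ WP β (x - c ^ (p + L) * x) p ∧ WP β (x - c ^ (p + L) * x) p ≤ 2 * WP β x p) ∧
    (WP β x p / 2 ≤ ∏ l ∈ Finset.range p, ac (β ^ (p + L + l) * (x - c ^ (p + L) * x)) ∧
      ∏ l ∈ Finset.range p, ac (β ^ (p + L + l) * (x - c ^ (p + L) * x)) ≤ 2 * WP β x p) := by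
  have hσ := T.σ0
  have hη := P.η0
  have hc := P.c0
  constructor
  · refine prod_perturb hμ (by positivity) hδ h (fun _ _ => ac_nonneg _) fun k hk => ?_
    refine (T.win1 P hL hk).trans ?_
    linarith
  · exact prod_perturb hμ (by positivity) hδ h (fun _ _ => ac_nonneg _) fun k _ => T.win2 P hL k

lemma Tri.W_step (P : Par β c η ω) (T : Tri β c η ω x y z p σ) (hσ : σ ≤ 1 / 32) {L : ℕ}
    (hL : p ≤ L) (hσL : σ ^ 2 * L ≤ 1) {μ : ℝ} (hμ : 0 < μ)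
    (hδ : 4 * (η * c ^ p + 2 * σ) * p ≤ μ / 2) (h : ∀ k < p, μ ≤ ac (β ^ k * x)) :
    Real.exp (-(60 / (1 - c) + 120)) / 4 * WP β x p ^ 2 ≤
      WP β (x - c ^ (p + L) * x) (p + (p + L)) := by
  obtain ⟨⟨h1, -⟩, ⟨h2, -⟩⟩ := T.windows P hL hμ hδ h
  have h3 := middle_prod P.c0.le P.c1 T.σ0 hσ L (fun l => β ^ (p + l) * (x - c ^ (p + L) * x))
    (fun l hl => T.mid P hl)
  have h4 : Real.exp (-(60 / (1 - c) + 120)) ≤ Real.exp (-(60 / (1 - c) + 120 * σ ^ 2 * L)) := by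
    rw [Real.exp_le_exp]; nlinarith
  rw [add_comm p (p + L), WP_add, WP_add]
  have hW := WP_nonneg β x p
  have hE := Real.exp_pos (-(60 / (1 - c) + 120))
  calc Real.exp (-(60 / (1 - c) + 120)) / 4 * WP β x p ^ 2
      = WP β x p / 2 * Real.exp (-(60 / (1 - c) + 120)) * (WP β x p / 2) := by ring
    _ ≤ _ := by
      refine mul_le_mul (mul_le_mul h1 (h4.trans h3) hE.le (WP_nonneg _ _ _)) h2 (by positivity) ?_
      exact mul_nonneg (WP_nonneg _ _ _) (Finset.prod_nonneg fun _ _ => ac_nonneg _)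

lemma Tri.W_upper (P : Par β c η ω) (T : Tri β c η ω x y z p σ) {L : ℕ}
    (hL : p ≤ L) {μ : ℝ} (hμ : 0 < μ)
    (hδ : 4 * (η * c ^ p + 2 * σ) * p ≤ μ / 2) (h : ∀ k < p, μ ≤ ac (β ^ k * x)) (r : ℕ) :
    WP β (x - c ^ (p + L) * x) (p + L + p + r) ≤ 4 * WP β x p ^ 2 := by
  obtain ⟨⟨-, h1⟩, ⟨-, h2⟩⟩ := T.windows P hL hμ hδ h
  rw [WP_add, WP_add, WP_add]
  have hW := WP_nonneg β x p
  have b : ∀ (q : ℕ) (f : ℕ → ℝ), ∏ l ∈ Finset.range q, ac (f l) ≤ 1 := fun q f =>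
    Finset.prod_le_one (fun _ _ => ac_nonneg _) fun _ _ => ac_le_one _
  have b0 : ∀ (q : ℕ) (f : ℕ → ℝ), 0 ≤ ∏ l ∈ Finset.range q, ac (f l) := fun q f =>
    Finset.prod_nonneg fun _ _ => ac_nonneg _
  calc _ ≤ (2 * WP β x p) * 1 * (2 * WP β x p) * 1 := by
        refine mul_le_mul (mul_le_mul (mul_le_mul h1 (b _ _) (b0 _ _) (by positivity)) h2 (b0 _ _)
          (by positivity)) (b _ _) (b0 _ _) (by positivity)
    _ = _ := by ring

lemma Tri.W_lower (P : Par β c η ω) (T : Tri β c η ω x y z p σ) (hσ : σ ≤ 1 / 32) {L : ℕ}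
    (hσL : σ ^ 2 * L ≤ 1) :
    Real.exp (-(60 / (1 - c) + 120)) * WP β x p ≤ WP β x (p + L) := by
  have h3 := middle_prod P.c0.le P.c1 T.σ0 hσ L (fun l => β ^ (p + l) * x)
    (fun l _ => T.mid0 P L l)
  have h4 : Real.exp (-(60 / (1 - c) + 120)) ≤ Real.exp (-(60 / (1 - c) + 120 * σ ^ 2 * L)) := by
    rw [Real.exp_le_exp]; nlinarith
  rw [WP_add, mul_comm]
  exact mul_le_mul_of_nonneg_left (h4.trans h3) (WP_nonneg _ _ _)

end Crest.Agent.R104
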