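import Mathlib

set_option autoImplicit false

open Real

namespace Crest.Agent.R104

/-- `|cos (π t)|`. -/
noncomputable def ac (t : ℝ) : ℝ := |Real.cos (π * t)|

lemma ac_nonneg (t : ℝ) : 0 ≤ ac t := abs_nonneg _

lemma ac_le_one (t : ℝ) : ac t ≤ 1 := Real.abs_cos_le_one _

lemma ac_neg (t : ℝ) : ac (-t) = ac t := by simp [ac]

lemma ac_add_int (t : ℝ) (n : ℤ) : ac (t + n) = ac t := by
  unfold ac
  rw [mul_add, mul_comm π (n : ℝ), Real.cos_add_int_mul_pi, abs_mul, abs_zpow]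
  simp

lemma ac_near {s t δ : ℝ} (h : ∃ n : ℤ, |t - s - n| ≤ δ) : |ac t - ac s| ≤ 4 * δ := by
  obtain ⟨n, hn⟩ := h
  rw [← ac_add_int s n]
  unfold ac
  refine (abs_abs_sub_abs_le_abs_sub _ _).trans ((Real.abs_cos_sub_cos_le _ _).trans ?_)
  rw [← mul_sub, abs_mul, abs_of_pos Real.pi_pos]
  have : t - (s + n) = t - s - n := by ring
  rw [this]
  have h0 := abs_nonneg (t - s - n)
  have := Real.pi_le_four
  nlinarith

lemma ac_ge_of_near {t r : ℝ} (h : ∃ n : ℤ, |t - n| ≤ r) : 1 - 5 * r ^ 2 ≤ ac t := by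
  obtain ⟨n, hn⟩ := h
  have e : ac t = ac (t - n) := by
    rw [← ac_add_int (t - n) n]; congr 1; ring
  rw [e]
  refine le_trans ?_ (le_abs_self _)
  refine le_trans ?_ Real.one_sub_sq_div_two_le_cos
  have h1 : (t - n) ^ 2 ≤ r ^ 2 := by
    rw [← sq_abs (t - n)]; exact pow_le_pow_left₀ (abs_nonneg _) hn 2
  have h2 : π ^ 2 ≤ 10 := by
    have := Real.pi_lt_d2
    have := Real.pi_pos
    nlinarith
  rw [mul_pow]
  nlinarith [sq_nonneg (t - n)]

lemma exp_neg_two_le {u : ℝ} (h0 : 0 ≤ u) (h1 : u ≤ 1 / 2) : Real.exp (-(2 * u)) ≤ 1 - u := by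
  rw [Real.exp_neg, inv_le_comm₀ (Real.exp_pos _) (by linarith)]
  refine le_trans ?_ (Real.add_one_le_exp _)
  rw [inv_eq_one_div, div_le_iff₀ (by linarith)]
  nlinarith

lemma geom_le {c : ℝ} (hc0 : 0 ≤ c) (hc1 : c < 1) (L : ℕ) :
    ∑ l ∈ Finset.range L, c ^ l ≤ 1 / (1 - c) := by
  have := (summable_geometric_of_lt_one hc0 hc1).sum_le_tsum (Finset.range L)
    (fun i _ => by positivity)
  rwa [tsum_geometric_of_lt_one hc0 hc1, inv_eq_one_div] at this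

lemma middle_half {c σ : ℝ} (hc0 : 0 ≤ c) (hc1 : c < 1) (hσ0 : 0 ≤ σ) (hσ : σ ≤ 1 / 32)
    {a b : ℕ} {t : ℝ} (h : ∃ n : ℤ, |t - n| ≤ c ^ a / 16 + c ^ b / 16 + 2 * σ) :
    1 / 2 ≤ ac t := by
  refine le_trans ?_ (ac_ge_of_near h)
  have ha : c ^ a ≤ 1 := pow_le_one₀ hc0 hc1.le
  have hb : c ^ b ≤ 1 := pow_le_one₀ hc0 hc1.le
  have ha0 : 0 ≤ c ^ a := by positivity
  have hb0 : 0 ≤ c ^ b := by positivity
  nlinarith

lemma middle_prod {c σ : ℝ} (hc0 : 0 ≤ c) (hc1 : c < 1) (hσ0 : 0 ≤ σ) (hσ : σ ≤ 1 / 32)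
    (L : ℕ) (t : ℕ → ℝ)
    (h : ∀ l < L, ∃ n : ℤ, |t l - n| ≤ c ^ l / 16 + c ^ (L - l) / 16 + 2 * σ) :
    Real.exp (-(60 / (1 - c) + 120 * σ ^ 2 * L)) ≤ ∏ l ∈ Finset.range L, ac (t l) := by
  have h1 : ∀ l ∈ Finset.range L,
      Real.exp (-(30 * c ^ l + 30 * c ^ (L - 1 - l) + 120 * σ ^ 2)) ≤ ac (t l) := by
    intro l hl
    have hl' := Finset.mem_range.1 hl
    refine le_trans ?_ (ac_ge_of_near (h l hl'))
    have ha : c ^ l ≤ 1 := pow_le_one₀ hc0 hc1.le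
    have hb : c ^ (L - l) ≤ 1 := pow_le_one₀ hc0 hc1.le
    have hb' : c ^ (L - l) ≤ c ^ (L - 1 - l) := pow_le_pow_of_le_one hc0 hc1.le (by omega)
    have ha0 : 0 ≤ c ^ l := by positivity
    have hb0 : 0 ≤ c ^ (L - l) := by positivity
    refine le_trans ?_ (exp_neg_two_le (by positivity) (by nlinarith))
    rw [Real.exp_le_exp, neg_le_neg_iff]
    set A := c ^ l
    set B := c ^ (L - l)
    have hA : A ^ 2 ≤ A := by nlinarith
    have hB : B ^ 2 ≤ B := by nlinarith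
    nlinarith [sq_nonneg (A / 16 - B / 16), sq_nonneg (A / 16 - 2 * σ), sq_nonneg (B / 16 - 2 * σ)]
  refine le_trans ?_ (Finset.prod_le_prod (fun i _ => (Real.exp_pos _).le) h1)
  rw [← Real.exp_sum, Real.exp_le_exp, Finset.sum_neg_distrib, neg_le_neg_iff,
    Finset.sum_add_distrib, Finset.sum_add_distrib, ← Finset.mul_sum, ← Finset.mul_sum,
    Finset.sum_range_reflect (fun i => c ^ i) L]
  have := geom_le hc0 hc1 L
  simp only [Finset.sum_const, Finset.card_range, nsmul_eq_mul]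
  have e : 60 / (1 - c) = 60 * (1 / (1 - c)) := by ring
  rw [e]
  nlinarith

lemma prod_perturb {p : ℕ} {f g : ℕ → ℝ} {μ e : ℝ} (hμ : 0 < μ) (he : 0 ≤ e)
    (hep : e * p ≤ μ / 2) (hf : ∀ k < p, μ ≤ f k) (hg0 : ∀ k < p, 0 ≤ g k)
    (hfg : ∀ k < p, |g k - f k| ≤ e) :
    (∏ k ∈ Finset.range p, f k) / 2 ≤ ∏ k ∈ Finset.range p, g k ∧
      ∏ k ∈ Finset.range p, g k ≤ 2 * ∏ k ∈ Finset.range p, f k := by
  rcases Nat.eq_zero_or_pos p with rfl | hp
  · norm_num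
  set u := e / μ with hu
  have hu0 : 0 ≤ u := by positivity
  have hup : u * p ≤ 1 / 2 := by
    rw [hu, div_mul_eq_mul_div, div_le_iff₀ hμ]; linarith
  have hp1 : (1 : ℝ) ≤ p := by exact_mod_cast hp
  have hu1 : u ≤ 1 / 2 := by nlinarith
  have heu : e = u * μ := by rw [hu]; field_simp
  have hW : 0 ≤ ∏ k ∈ Finset.range p, f k :=
    Finset.prod_nonneg fun k hk => hμ.le.trans (hf k (Finset.mem_range.1 hk))
  constructor
  · have h1 : ∏ k ∈ Finset.range p, (f k * (1 - u)) ≤ ∏ k ∈ Finset.range p, g k := by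
      refine Finset.prod_le_prod (fun k hk => ?_) (fun k hk => ?_)
      · have := hf k (Finset.mem_range.1 hk)
        exact mul_nonneg (by linarith) (by linarith)
      · have h1 := hf k (Finset.mem_range.1 hk)
        have h2 := (abs_le.1 (hfg k (Finset.mem_range.1 hk))).1
        nlinarith
    refine le_trans ?_ h1
    rw [Finset.prod_mul_distrib, Finset.prod_const, Finset.card_range]
    have h2 := one_add_mul_le_pow (a := -u) (by linarith) p
    have h3 : (1 : ℝ) / 2 ≤ (1 - u) ^ p := by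
      rw [sub_eq_add_neg]; linarith
    nlinarith
  · have h1 : ∏ k ∈ Finset.range p, g k ≤ ∏ k ∈ Finset.range p, (f k * Real.exp u) := by
      refine Finset.prod_le_prod (fun k hk => hg0 k (Finset.mem_range.1 hk)) (fun k hk => ?_)
      have h1 := hf k (Finset.mem_range.1 hk)
      have h2 := (abs_le.1 (hfg k (Finset.mem_range.1 hk))).2
      have h3 := Real.add_one_le_exp u
      nlinarith
    refine h1.trans ?_
    rw [Finset.prod_mul_distrib, Finset.prod_const, Finset.card_range, ← Real.exp_nat_mul]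
    have h2 : Real.exp (p * u) ≤ 2 := by
      calc Real.exp (p * u) ≤ Real.exp (Real.log 2) := by
            rw [Real.exp_le_exp]
            have := Real.log_two_gt_d9
            linarith
        _ = 2 := Real.exp_log (by norm_num)
    nlinarith

lemma norm_pow_sub_one_le {ω : ℂ} (hω : ‖ω‖ = 1) (t : ℕ) : ‖ω ^ t - 1‖ ≤ t * ‖ω - 1‖ := by
  induction t with
  | zero => simp
  | succ t ih =>
    have : ω ^ (t + 1) - 1 = ω ^ t * (ω - 1) + (ω ^ t - 1) := by ring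
    rw [this]
    refine (norm_add_le _ _).trans ?_
    rw [norm_mul, norm_pow, hω, one_pow]
    push_cast
    linarith

lemma dirichlet0 {ω : ℂ} (hω : ‖ω‖ = 1) {N : ℕ} (hN : 0 < N) :
    ∃ j : ℕ, 0 < j ∧ j ≤ N ∧ ‖ω ^ j - 1‖ ≤ 7 / N := by
  obtain ⟨θ, hθ⟩ := (Complex.norm_eq_one_iff ω).1 hω
  obtain ⟨j, hj0, hjN, hj⟩ := Real.exists_nat_abs_mul_sub_round_le (θ / (2 * π)) hN
  refine ⟨j, hj0, hjN, ?_⟩
  set r := round ((j : ℝ) * (θ / (2 * π))) with hr
  have hπ := Real.pi_pos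
  have e : ω ^ j = Complex.exp (Complex.I * ((2 * π * (j * (θ / (2 * π)) - r) : ℝ) : ℂ)) := by
    rw [← hθ, ← Complex.exp_nat_mul]
    have e1 : (2 * π * (j * (θ / (2 * π)) - r) : ℝ) = j * θ - r * (2 * π) := by
      field_simp
    rw [e1]
    have e2 : Complex.I * ((j * θ - r * (2 * π) : ℝ) : ℂ) =
        j * (θ * Complex.I) - r * (2 * π * Complex.I) := by push_cast; ring
    rw [e2, Complex.exp_sub, Complex.exp_int_mul_two_pi_mul_I, div_one]
  rw [e]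
  refine Real.norm_exp_I_mul_ofReal_sub_one_le.trans ?_
  rw [Real.norm_eq_abs, abs_mul, abs_of_pos (by positivity : 0 < 2 * π)]
  have hN' : (0 : ℝ) < N := by exact_mod_cast hN
  have h1 : (1 : ℝ) / (N + 1) ≤ 1 / N := one_div_le_one_div_of_le hN' (by linarith)
  have h2 : 2 * π ≤ 7 := by have := Real.pi_lt_d2; linarith
  calc 2 * π * |j * (θ / (2 * π)) - r| ≤ 7 * (1 / N) := by
        gcongr
        exact hj.trans h1
    _ = 7 / N := by ring

lemma dirichlet {ω : ℂ} (hω : ‖ω‖ = 1) {Q N : ℕ} (hQ : 0 < Q) (hQN : 2 * Q ≤ N) :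
    ∃ j : ℕ, Q ≤ j ∧ j ≤ N ∧ (‖ω ^ j - 1‖ ≤ 7 / N ∨ (j ≤ 2 * Q ∧ ‖ω ^ j - 1‖ ≤ 7 * Q / N)) := by
  obtain ⟨j, hj0, hjN, hj⟩ := dirichlet0 hω (N := N) (by omega)
  by_cases h : Q ≤ j
  · exact ⟨j, h, hjN, Or.inl hj⟩
  · push Not at h
    have h1 : j * (Q / j + 1) ≤ 2 * Q := by
      have := Nat.mul_div_le Q j
      rw [mul_add]; omega
    have h2 : Q ≤ j * (Q / j + 1) := (Nat.lt_mul_div_succ Q hj0).le
    by_cases h3 : Q / j + 1 ≤ Q
    · refine ⟨j * (Q / j + 1), h2, h1.trans hQN, Or.inr ⟨h1, ?_⟩⟩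
      rw [pow_mul]
      refine (norm_pow_sub_one_le (by rw [norm_pow, hω, one_pow]) _).trans ?_
      have h4 : ((Q / j + 1 : ℕ) : ℝ) ≤ Q := by exact_mod_cast h3
      calc ((Q / j + 1 : ℕ) : ℝ) * ‖ω ^ j - 1‖ ≤ Q * (7 / N) := by gcongr
        _ = 7 * Q / N := by ring
    · refine ⟨j * Q, Nat.le_mul_of_pos_left _ hj0, ?_, Or.inr ⟨?_, ?_⟩⟩
      · have : Q ≤ Q / j + 1 := by omega
        have := Nat.mul_le_mul_left j this
        omega
      · have : Q ≤ Q / j + 1 := by omega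
        have := Nat.mul_le_mul_left j this
        omega
      · rw [pow_mul]
        refine (norm_pow_sub_one_le (by rw [norm_pow, hω, one_pow]) _).trans ?_
        calc (Q : ℝ) * ‖ω ^ j - 1‖ ≤ Q * (7 / N) := by gcongr
          _ = 7 * Q / N := by ring

end Crest.Agent.R104
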